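import Vale.Agent.P106.U.H624.JunM
import Vale.Agent.P106.U.H785.MtrF2
import Vale.Agent.P106.U.H459.Lt
import Vale.Agent.P106.U.H118.RiseH
import Vale.Agent.P106.U.H833.Cap2

/-!
# P106 / U / H624 : junctions over the record (helper624)

`R` run, `F2` the field `f2`, `C = lc R.C μ o` the path with a smaller margin, `mt = S3.mt R F μ o o'`, `mt0 = S3.mt0 R F μ o o'`.
`i` young (`i ∈ YI R p Vs`), `i ≤ R.n`.  `cJ K`, `cT K` constants, `jT i = H(R.C.T i | mt.lt i)`.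

* `lnk_mt`, `lnk0_mt0`, `same_mt`, `sm0_mt0` : the hypotheses of `JunM`.
* `lt0_iff` : the letters of `mt` and `mt0` are equivalent.
* `mtr_cell`, `mtr0_cell` : `H(mtr i b | C.cell i b) ≤ 18 μ log 2 + cJ + cT`.
* `cell_mtr`, `cell_mtr0` : `H(C.cell i b | mtr i b) ≤ 27 μ log 2 + cJ + jT i`.
* `cell_mtr_of`, `cell_mtr0_of` : an earlier cell `C.cell k b`, `k ≤ i`, given `mtr i b` (+ `nuK K`).
* `psi_chg2` : difference of the potentials.
-/

set_option autoImplicit false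

namespace Vale.Agent.P106.U.H624

open Finset Vale.Agent.P127 Vale.Agent.P127.Stk
open Vale.Agent.P127.U.CellD
open Vale.Agent.P106.U.Cell Vale.Agent.P106.U.Cell.Pth
open Vale.Agent.P106.U.H101 (Two lc lc_F lc_s lc_l lc_R lc_Ok)
open Vale.Agent.P106.U.H785.Mtr (Mtd YI hy_mt hy_mt0)

/-! ### the letter given the cell -/

section letter

variable {Ω τ π : Type} [Fintype Ω] {C : Pth Ω τ} {D : Mtd Ω π} {K : ℝ} {i b : ℕ}

/-- the path and the true data, one point, with the true curvature -/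
structure LkA (D : Mtd Ω π) (C : Pth Ω τ) (K : ℝ) (i : ℕ) (ω : Ω) : Prop where
  w1 : |(C.l ω).w| ≤ 2
  lk : Lnk D C K i ω
  ap : |D.al i ω - D.g i ω| * q2 (C.a i) ≤ K * q2 (C.rk i)

omit [Fintype Ω] in
theorem u_eqA (hS : Same D C i) (hK : 0 ≤ K) {ω : Ω} (h : LkA D C K i ω) :
    |D.u i ω - ((C.F i ω).ga - (C.F i ω).al * D.Nr i ω)| ≤ 5 * K * q2 (C.rk i) := by
  have q := q2_pos (C.rk i)
  have es := s_eq0 (hS.sm0 0) ω
  have e0 : (C.F i ω).cN (C.l ω) (C.s i ω) =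
      (C.F i ω).ga - (C.F i ω).ka * (D.l ω).w - (C.F i ω).al * (D.l ω).N (D.s i ω) := by
    rw [es, hS.l]
    rfl
  have e1 : D.u i ω - ((C.F i ω).ga - (C.F i ω).al * D.Nr i ω) =
      -((C.F i ω).cN (C.l ω) (C.s i ω) - D.un ω) - ((C.F i ω).ka - D.κ i ω) * (D.l ω).w +
        (D.al i ω - (C.F i ω).al) * ((D.l ω).N (D.s i ω) - D.Nr i ω) := by
    rw [e0]
    unfold Mtd.u
    ring
  have t1 := h.lk.un
  have t2 : |((C.F i ω).ka - D.κ i ω) * (D.l ω).w| ≤ K * q2 (C.rk i) * 2 := by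
    rw [abs_mul]
    refine mul_le_mul h.lk.ka ?_ (abs_nonneg _) (mul_nonneg hK q.le)
    rw [hS.l]
    exact h.w1
  have t3 : |(D.al i ω - (C.F i ω).al) * ((D.l ω).N (D.s i ω) - D.Nr i ω)| ≤ 2 * K * q2 (C.rk i) := by
    refine Mtd.prod_le (a := q2 (D.a i)) ?_ (Mtd.Nr_near D i ω)
    rw [hS.a]
    have h1 := h.lk.al
    have h2 := h.ap
    have h3 : |D.al i ω - (C.F i ω).al| ≤ |D.al i ω - D.g i ω| + |(C.F i ω).al - D.g i ω| := by
      have : D.al i ω - (C.F i ω).al = (D.al i ω - D.g i ω) - ((C.F i ω).al - D.g i ω) := by ring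
      rw [this]
      exact abs_sub _ _
    have h4 := mul_le_mul_of_nonneg_right h3 (q2_pos (C.a i)).le
    linarith
  rw [e1]
  rw [abs_le] at t1 t2 t3 ⊢
  constructor <;> linarith [t1.1, t1.2, t2.1, t2.2, t3.1, t3.2]

/-- constant of the letter -/
noncomputable def cT (K : ℝ) : ℝ := Real.log (2 * (⌈2 * K⌉₊ : ℕ) + 3) + Real.log (2 * (⌈10 * K⌉₊ : ℕ) + 3)

/-- **price of the letter** given the cell of the path and the stored letter -/
theorem hc_ltA (P : Law Ω) (hS : Same D C i) (hK : 0 ≤ K) (ho : C.o 2 = D.o 2) (hb : C.μ ≤ b)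
    (h : ∀ ω, 0 < P.w ω → LkA D C K i ω) :
    hc P (D.lt i) (fun ω => (C.cell i b ω, D.pf i ω)) ≤ cT K := by
  set Y : Ω → (τ × Pth.Dg) × π := fun ω => (C.cell i b ω, D.pf i ω) with hY
  have er : D.rr i = C.rk i - D.ν := by unfold Mtd.rr; rw [hS.rk]
  have hrk : q2 (C.rk i) ≤ q2 (D.rr i) := by rw [er]; exact q2_le (Nat.sub_le _ _)
  have q := q2_pos (C.rk i)
  have es : ∀ ω, D.s i ω = C.s i ω := fun ω => s_eq0 (hS.sm0 0) ω
  -- what is determined by the cell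
  have hT : ∀ ω ω', Y ω' = Y ω → C.T i ω' = C.T i ω := fun ω ω' e => (cell_iff.1 (congrArg Prod.fst e)).1
  have hN : ∀ ω ω', Y ω' = Y ω → D.nN i ω' = D.nN i ω := by
    intro ω ω' e
    have h2 := (cell_iff.1 (congrArg Prod.fst e)).2.2 2
    rw [va2, va2, lv2] at h2
    have h3 := fl1_fl1 (show D.a i ≤ C.a i + b - C.μ by rw [hS.a]; omega) h2
    unfold Mtd.nN
    rw [es, es, hS.l, ← ho]
    exact h3
  -- kappa
  have e1 : hc P (D.kN i) Y ≤ Real.log (2 * (⌈2 * K⌉₊ : ℕ) + 3) := by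
    refine H459.hc_fl1 P (fun ω => D.κ i ω + D.oκ) Y (D.rr i) ⌈2 * K⌉₊ fun ω ω' p p' e => ?_
    have a1 := (h ω p).lk.ka
    have a2 := (h ω' p').lk.ka
    rw [F_ka (hT ω ω' e).symm] at a2
    have a3 : (2 * K) * q2 (D.rr i) ≤ (⌈2 * K⌉₊ : ℕ) * q2 (D.rr i) :=
      mul_le_mul_of_nonneg_right (Nat.le_ceil _) (q2_pos _).le
    have a4 : 2 * K * q2 (C.rk i) ≤ 2 * K * q2 (D.rr i) := mul_le_mul_of_nonneg_left hrk (by linarith)
    rw [add_sub_add_right_eq_sub]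
    rw [abs_le] at a1 a2 ⊢
    constructor <;> linarith [a1.1, a1.2, a2.1, a2.2]
  -- gamma
  have e2 : hc P (D.uN i) (fun ω => (D.kN i ω, Y ω)) ≤ Real.log (2 * (⌈10 * K⌉₊ : ℕ) + 3) := by
    refine H459.hc_fl1 P (fun ω => D.u i ω + D.oγ) _ (D.rr i) ⌈10 * K⌉₊ fun ω ω' p p' e => ?_
    have eY : Y ω' = Y ω := congrArg Prod.snd e
    have a1 := u_eqA hS hK (h ω p)
    have a2 := u_eqA hS hK (h ω' p')
    have eN : D.Nr i ω' = D.Nr i ω := by
      unfold Mtd.Nr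
      rw [hN ω ω' eY]
    rw [F_ga (hT ω ω' eY).symm, F_al (hT ω ω' eY).symm, eN] at a2
    have a3 : (10 * K) * q2 (D.rr i) ≤ (⌈10 * K⌉₊ : ℕ) * q2 (D.rr i) :=
      mul_le_mul_of_nonneg_right (Nat.le_ceil _) (q2_pos _).le
    have a4 : 10 * K * q2 (C.rk i) ≤ 10 * K * q2 (D.rr i) := mul_le_mul_of_nonneg_left hrk (by linarith)
    rw [add_sub_add_right_eq_sub]
    rw [abs_le] at a1 a2 ⊢
    constructor <;> linarith [a1.1, a1.2, a2.1, a2.2]
  have e3 := hc_le_add P (D.lt i) (D.kN i) Y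
  have e4 := hc_le_add P (D.lt i) (D.uN i) (fun ω => (D.kN i ω, Y ω))
  have e5 : hc P (D.lt i) (fun ω => (D.uN i ω, (D.kN i ω, Y ω))) = 0 := by
    refine hc_zero P fun ω ω' p p' e => ?_
    have f1 : D.uN i ω = D.uN i ω' := congrArg Prod.fst e
    have f2 : D.kN i ω = D.kN i ω' := congrArg (fun x => x.2.1) e
    have f3 : Y ω = Y ω' := congrArg (fun x => x.2.2) e
    have f4 : fl1 (D.a i) (D.t ω) = fl1 (D.a i) (D.t ω') := by
      have g1 := hT ω' ω f3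
      have g2 := C.htm i ω
      have g3 := C.htm i ω'
      rw [← g1] at g3
      have g4 := g2.symm.trans g3
      rw [hS.t, hS.a]
      exact g4
    have f5 : D.pf i ω = D.pf i ω' := congrArg Prod.snd f3
    unfold Mtd.lt
    rw [f4, f5, f2, f1, hN ω' ω f3]
  unfold cT
  linarith

end letter

/-! ### the record -/

section run

variable {Ω : Type} [Fintype Ω] {τ υ π : Type}
variable {R : S3.Run Ω τ υ} {p : S3.Run.Num} {K c' g' gU : ℝ} {B bS bV μ : ℕ} {F : S3.Pf R π} {Vs Xs : Finset ℕ}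
  {o : Fin 7 → ℝ} {o' : ℕ → ℝ} {ω : Ω} {i k b : ℕ}

theorem same_mt : Same (S3.mt R F μ o o') (lc R.C μ o) i :=
  ⟨rfl, rfl, rfl, rfl, rfl, rfl, rfl, Nat.div_le_self _ _⟩

/-- the deep phi regime at the cap `b` -/
theorem sm0_mt0 (hμB : μ ≤ B) (m1 : 1 ≤ R.m) (hR0 : R.C.rf i + 2 * (R.m * B) ≤ b + F.rk0 i) :
    Sm0 (S3.mt0 R F μ o o') (lc R.C μ o) i i b := by
  have mB : B ≤ R.m * B := Nat.le_mul_of_pos_left B m1
  refine ⟨rfl, rfl, ?_, ?_, rfl, rfl, rfl, rfl⟩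
  · show F.rk0 i - μ / 2 ≤ R.C.rk i
    have := F.l0 i
    omega
  · have h1 := R_le_rf (C := lc R.C μ o) i b
    have h2 : (S3.mt0 R F μ o o').R i b = min (F.rk0 i - μ / 2 + b) (R.C.rf i) := rfl
    have h3 : (lc R.C μ o).rf i = R.C.rf i := rfl
    rw [h3] at h1
    rw [h2]
    have : R.C.rf i ≤ F.rk0 i - μ / 2 + b := by omega
    rw [min_eq_right this]
    omega

/-- the letters of `mt` and `mt0` are equivalent -/
theorem lt0_iff (ω ω' : Ω) : (S3.mt0 R F μ o o').lt i ω = (S3.mt0 R F μ o o').lt i ω' ↔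
    (S3.mt R F μ o o').lt i ω = (S3.mt R F μ o o').lt i ω' := by
  have hl : F.rk0 i - μ / 2 ≤ R.C.rk i - μ / 2 := Nat.sub_le_sub_right (F.l0 i) _
  have hN : (S3.mt0 R F μ o o').nN i = (S3.mt R F μ o o').nN i := rfl
  have hu : ∀ ω, (S3.mt0 R F μ o o').uN i ω = fl1 (F.rk0 i - μ / 2) (S3.uL R o i ω + o' 1) := fun ω => rfl
  have hu' : ∀ ω, (S3.mt R F μ o o').uN i ω = fl1 (R.C.rk i - μ / 2) (S3.uL R o i ω + o' 1) := fun ω => rfl
  have hk : ∀ ω, (S3.mt0 R F μ o o').kN i ω = fl1 (F.rk0 i - μ / 2) (S3.kaL R i ω + o' 0) := fun ω => rfl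
  have hk' : ∀ ω, (S3.mt R F μ o o').kN i ω = fl1 (R.C.rk i - μ / 2) (S3.kaL R i ω + o' 0) := fun ω => rfl
  have hp : ∀ ω, (S3.mt0 R F μ o o').pf i ω =
      (F.pf i ω, (S3.mt R F μ o o').kN i ω, (S3.mt R F μ o o').uN i ω) := fun ω => rfl
  constructor
  · intro e
    have e1 : fl1 (R.C.a i) (R.C.t ω) = fl1 (R.C.a i) (R.C.t ω') := congrArg Prod.fst e
    have e2 : (S3.mt0 R F μ o o').pf i ω = (S3.mt0 R F μ o o').pf i ω' := congrArg (fun x => x.2.1) e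
    have e3 : (S3.mt0 R F μ o o').nN i ω = (S3.mt0 R F μ o o').nN i ω' := congrArg (fun x => x.2.2.2.2) e
    rw [hp, hp] at e2
    have e4 : F.pf i ω = F.pf i ω' := congrArg Prod.fst e2
    have e5 : (S3.mt R F μ o o').kN i ω = (S3.mt R F μ o o').kN i ω' := congrArg (fun x => x.2.1) e2
    have e6 : (S3.mt R F μ o o').uN i ω = (S3.mt R F μ o o').uN i ω' := congrArg (fun x => x.2.2) e2
    rw [hN] at e3
    show (fl1 (R.C.a i) (R.C.t ω), F.pf i ω, (S3.mt R F μ o o').kN i ω, (S3.mt R F μ o o').uN i ω,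
      (S3.mt R F μ o o').nN i ω) = _
    rw [e1, e4, e5, e6, e3]
    rfl
  · intro e
    have e1 : fl1 (R.C.a i) (R.C.t ω) = fl1 (R.C.a i) (R.C.t ω') := congrArg Prod.fst e
    have e2 : F.pf i ω = F.pf i ω' := congrArg (fun x => x.2.1) e
    have e3 : (S3.mt R F μ o o').kN i ω = (S3.mt R F μ o o').kN i ω' := congrArg (fun x => x.2.2.1) e
    have e4 : (S3.mt R F μ o o').uN i ω = (S3.mt R F μ o o').uN i ω' := congrArg (fun x => x.2.2.2.1) e
    have e5 : (S3.mt R F μ o o').nN i ω = (S3.mt R F μ o o').nN i ω' := congrArg (fun x => x.2.2.2.2) e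
    have e6 : (S3.mt0 R F μ o o').kN i ω = (S3.mt0 R F μ o o').kN i ω' := by
      rw [hk, hk]
      rw [hk', hk'] at e3
      exact fl1_fl1 hl e3
    have e7 : (S3.mt0 R F μ o o').uN i ω = (S3.mt0 R F μ o o').uN i ω' := by
      rw [hu, hu]
      rw [hu', hu'] at e4
      exact fl1_fl1 hl e4
    have e8 : (S3.mt0 R F μ o o').pf i ω = (S3.mt0 R F μ o o').pf i ω' := by
      rw [hp, hp, e2, e3, e4]
    show (fl1 (R.C.a i) (R.C.t ω), (S3.mt0 R F μ o o').pf i ω, (S3.mt0 R F μ o o').kN i ω,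
      (S3.mt0 R F μ o o').uN i ω, (S3.mt R F μ o o').nN i ω) = _
    rw [e1, e8, e6, e7, e5]
    rfl

section hyp

variable (hok : R.Ok p K c' g' gU) (hf : S3.F2 R p K B bS bV F Vs Xs) (h1 : 1 ≤ K)
  (hB : (100 * K) ^ 20 ≤ (B : ℝ)) (hr : 100 * (R.m * B) ≤ R.r0) (hμB : μ ≤ B) (hμ : μ ≤ R.C.μ)
  (hi : i ∈ YI R p Vs) (hin : i ≤ R.n)

/-- the functional of the step against the true numbers -/
theorem lnk_mt (hok : R.Ok p K c' g' gU) (hf : S3.F2 R p K B bS bV F Vs Xs) (h1 : 1 ≤ K) (hin : i ≤ R.n)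
    (hω : 0 < R.Q.w ω) : Lnk (S3.mt R F μ o o') (lc R.C μ o) (4 * K) i ω := by
  have hq := q2_pos (R.C.rk i)
  have hKq : 0 ≤ K * q2 (R.C.rk i) := by positivity
  have ag := hok.agW ω hω i hin
  have gF := hf.gvF i (by omega) ω hω
  have gA := hf.gvA i (by omega) ω hω
  have tw := H785.Mtr.OfR.tW_near hok (show i ≤ R.n + p.J by omega) ω
  refine ⟨?_, ?_, ?_⟩
  · have e := ag.cN
    have sh := Fu.cN_sh (R.C.F i ω) (R.C.l ω) (R.C.s i ω) (R.tW ω - R.C.s i ω)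
    rw [add_sub_cancel] at sh
    rw [sh] at e
    show |((lc R.C μ o).F i ω).cN (R.C.l ω) ((lc R.C μ o).s i ω) - S3.unL R ω| ≤ 4 * K * q2 (R.C.rk i)
    rw [lc_F, lc_s, abs_sub_comm]
    refine e.trans ?_
    linarith
  · have e := ag.ka
    have e5 : ((R.C.F i ω).sh (R.tW ω - R.C.s i ω)).ka =
        (R.C.F i ω).ka - (R.tW ω - R.C.s i ω) * (R.C.F i ω).al := rfl
    rw [e5] at e
    show |((lc R.C μ o).F i ω).ka - S3.kaL R i ω| ≤ 4 * K * q2 (R.C.rk i)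
    rw [lc_F]
    have e6 : (R.C.F i ω).ka - S3.kaL R i ω = -((R.FW ω).ka -
        ((R.C.F i ω).ka - (R.tW ω - R.C.s i ω) * (R.C.F i ω).al)) +
        ((R.C.F i ω).al - R.al i ω) * (R.tW ω - R.C.s i ω) := by
      unfold S3.kaL
      show _ - ((R.FW ω).ka + _) = _
      ring
    have e7 : |((R.C.F i ω).al - R.al i ω) * (R.tW ω - R.C.s i ω)| ≤ 2 * K * q2 (R.C.rk i) := by
      refine Mtd.prod_le (a := q2 (R.C.a i)) ?_ tw
      have h3 : |(R.C.F i ω).al - R.al i ω| ≤ |(R.C.F i ω).al - F.gv i (F.pf i ω)| + |R.al i ω - F.gv i (F.pf i ω)| := by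
        have : (R.C.F i ω).al - R.al i ω = ((R.C.F i ω).al - F.gv i (F.pf i ω)) - (R.al i ω - F.gv i (F.pf i ω)) := by
          ring
        rw [this]
        exact abs_sub _ _
      have h4 := mul_le_mul_of_nonneg_right h3 (q2_pos (R.C.a i)).le
      linarith
    rw [e6]
    rw [abs_le] at e e7 ⊢
    constructor <;> linarith [e.1, e.2, e7.1, e7.2]
  · show |((lc R.C μ o).F i ω).al - F.gv i (F.pf i ω)| * q2 (R.C.a i) ≤ 4 * K * q2 (R.C.rk i)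
    rw [lc_F]
    linarith

theorem lnk0_mt0 (hok : R.Ok p K c' g' gU) (hf : S3.F2 R p K B bS bV F Vs Xs) (h1 : 1 ≤ K) (hin : i ≤ R.n)
    (hω : 0 < R.Q.w ω) : Lnk0 (S3.mt0 R F μ o o') (lc R.C μ o) (4 * K) i i ω := by
  have L := lnk_mt (μ := μ) (o := o) (o' := o') hok hf h1 hin hω
  have hrr : q2 (R.C.rk i) ≤ q2 ((S3.mt0 R F μ o o').rr i) := q2_le (by
    show F.rk0 i - μ / 2 ≤ R.C.rk i
    have := F.l0 i
    omega)
  have hrr0 : q2 (F.rk0 i) ≤ q2 ((S3.mt0 R F μ o o').rr i) := q2_le (Nat.sub_le _ _)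
  have hq := q2_pos (R.C.rk i)
  have hK : 4 * K * q2 (R.C.rk i) ≤ 4 * (4 * K) * q2 ((S3.mt0 R F μ o o').rr i) := by
    have := mul_le_mul_of_nonneg_left hrr (show 0 ≤ K by linarith)
    nlinarith
  refine ⟨L.un.trans hK, L.ka.trans hK, ?_⟩
  have gF := hf.gvF i (by omega) ω hω
  have gA := hf.gvA i (by omega) ω hω
  have g0 := hf.gv0A i (by omega) ω hω
  show |((lc R.C μ o).F i ω).al - F.gv0 i (F.pf i ω)| * q2 (R.C.a i) ≤ _
  rw [lc_F]
  have h3 : |(R.C.F i ω).al - F.gv0 i (F.pf i ω)| ≤ |(R.C.F i ω).al - F.gv i (F.pf i ω)| +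
      |R.al i ω - F.gv i (F.pf i ω)| + |R.al i ω - F.gv0 i (F.pf i ω)| := by
    have : (R.C.F i ω).al - F.gv0 i (F.pf i ω) = ((R.C.F i ω).al - F.gv i (F.pf i ω)) -
        (R.al i ω - F.gv i (F.pf i ω)) + (R.al i ω - F.gv0 i (F.pf i ω)) := by
      ring
    rw [this]
    exact (abs_add_le _ _).trans (add_le_add (abs_sub _ _) le_rfl)
  have h4 := mul_le_mul_of_nonneg_right h3 (q2_pos (R.C.a i)).le
  have h5 := mul_le_mul_of_nonneg_left hrr (show 0 ≤ K by linarith)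
  have h6 := mul_le_mul_of_nonneg_left hrr0 (show 0 ≤ K by linarith)
  have h7 := q2_pos ((S3.mt0 R F μ o o').rr i)
  have h8 : 0 ≤ K * q2 ((S3.mt0 R F μ o o').rr i) := by positivity
  nlinarith

/-- constant of the junction -/
noncomputable def cJ (K : ℝ) : ℝ := 9 * Real.log (1632 * (⌈32 * K⌉₊ : ℕ) ^ 7 + 3)

theorem cM (K : ℝ) : 8 * (4 * K) ≤ ((⌈32 * K⌉₊ : ℕ) : ℝ) := by
  have := Nat.le_ceil (32 * K)
  linarith

theorem jlv (hok : R.Ok p K c' g' gU) (hr : 100 * (R.m * B) ≤ R.r0) (hμB : μ ≤ B) (hb : 8 * μ ≤ b) :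
    JLv (lc R.C μ o) i b := by
  have m1 := hok.pth.m1
  have mB : B ≤ R.m * B := Nat.le_mul_of_pos_left B m1
  have k0 := hok.pth.k0
  refine ⟨hb, ?_⟩
  show 9 * μ ≤ (lc R.C μ o).R i b
  rw [lc_R]
  have h1 : R.C.rk i ≤ R.C.R i b := by unfold Pth.R; omega
  have h2 : R.C.rk 0 ≤ R.C.rk i := R.C.hk (Nat.zero_le i)
  omega

theorem okC (hok : R.Ok p K c' g' gU) (h1 : 1 ≤ K) (hμ : μ ≤ R.C.μ) (hω : 0 < R.Q.w ω) :
    (lc R.C μ o).Ok (8 * (4 * K)) ω :=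
  ok_mono (by linarith) (by linarith) (lc_Ok o hμ (hok.ok ω hω))

include hok hf h1 hB hr hμB hμ hi hin

/-- **V → S**, letter of the path given -/
theorem cell_mtr_T (hb : 8 * μ ≤ b) :
    Stk.hc R.Q ((lc R.C μ o).cell i b) (fun ω => ((S3.mt R F μ o o').mtr i b ω, R.C.T i ω)) ≤
      27 * μ * Real.log 2 + cJ K :=
  hc_cell_mtr R.Q same_mt (jlv hok hr hμB hb) (by linarith) (cM K) hi
    (fun _ hω => okC hok h1 hμ hω) (fun _ hω => hy_mt hok hf h1 hB hr hμB hμ hω)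
    (fun _ hω => lnk_mt hok hf h1 hin hω)

/-- **S → V**, letter given -/
theorem mtr_cell_lt (hb : 8 * μ ≤ b) :
    Stk.hc R.Q ((S3.mt R F μ o o').mtr i b) (fun ω => ((lc R.C μ o).cell i b ω, (S3.mt R F μ o o').lt i ω)) ≤
      18 * μ * Real.log 2 + cJ K :=
  hc_mtr_cell R.Q same_mt (jlv hok hr hμB hb) (by linarith) (cM K) hi
    (fun _ hω => okC hok h1 hμ hω) (fun _ hω => hy_mt hok hf h1 hB hr hμB hμ hω)
    (fun _ hω => lnk_mt hok hf h1 hin hω)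

/-- deep phi regime -/
theorem cell_mtr0_T (hb : 8 * μ ≤ b) (hR0 : R.C.rf i + 2 * (R.m * B) ≤ b + F.rk0 i) :
    Stk.hc R.Q ((lc R.C μ o).cell i b) (fun ω => ((S3.mt0 R F μ o o').mtr i b ω, R.C.T i ω)) ≤
      27 * μ * Real.log 2 + cJ K :=
  hc_cell_mtr0 R.Q (sm0_mt0 hμB hok.pth.m1 hR0) (jlv hok hr hμB hb) (by linarith) (cM K) hi
    (fun _ hω => okC hok h1 hμ hω) (fun _ hω => hy_mt0 hok hf h1 hB hr hμB hμ hω hf.lo0)
    (fun _ hω => lnk0_mt0 hok hf h1 hin hω)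

theorem mtr0_cell_lt (hb : 8 * μ ≤ b) (hR0 : R.C.rf i + 2 * (R.m * B) ≤ b + F.rk0 i) :
    Stk.hc R.Q ((S3.mt0 R F μ o o').mtr i b) (fun ω => ((lc R.C μ o).cell i b ω, (S3.mt0 R F μ o o').lt i ω)) ≤
      18 * μ * Real.log 2 + cJ K :=
  hc_mtr0_cell R.Q (sm0_mt0 hμB hok.pth.m1 hR0) (jlv hok hr hμB hb) (by linarith) (cM K) hi
    (fun _ hω => okC hok h1 hμ hω) (fun _ hω => hy_mt0 hok hf h1 hB hr hμB hμ hω hf.lo0)
    (fun _ hω => lnk0_mt0 hok hf h1 hin hω)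

omit hB hr hμB hi in
/-- **the letter given the cell** -/
theorem lt_cell (hpT : Fn R.Q (F.pf i) (R.C.T i)) (hb : μ ≤ b) :
    Stk.hc R.Q ((S3.mt R F μ o o').lt i) ((lc R.C μ o).cell i b) ≤ cT (4 * K) := by
  refine le_trans (hc_mono_right R.Q _ fun ω ω' hω hω' e => ?_)
    (hc_ltA (b := b) R.Q (same_mt (F := F) (o := o) (o' := o')) (by linarith) rfl hb fun ω hω => ⟨?_, ?_, ?_⟩)
  · have e1 : (lc R.C μ o).cell i b ω = (lc R.C μ o).cell i b ω' := e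
    exact Prod.ext e1 (hpT ω ω' hω hω' (cell_iff.1 e1).1)
  · exact (hok.ok ω hω).w1
  · exact lnk_mt hok hf h1 hin hω
  · have gA := hf.gvA i (by omega) ω hω
    have hq := q2_pos (R.C.rk i)
    show |R.al i ω - F.gv i (F.pf i ω)| * q2 (R.C.a i) ≤ 4 * K * q2 (R.C.rk i)
    have : 0 ≤ K * q2 (R.C.rk i) := by positivity
    linarith

/-- **S → V** -/
theorem mtr_cell (hpT : Fn R.Q (F.pf i) (R.C.T i)) (hb : 8 * μ ≤ b) :
    Stk.hc R.Q ((S3.mt R F μ o o').mtr i b) ((lc R.C μ o).cell i b) ≤ 18 * μ * Real.log 2 + cJ K + cT (4 * K) := by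
  have e1 := hc_le_add R.Q ((S3.mt R F μ o o').mtr i b) ((S3.mt R F μ o o').lt i) ((lc R.C μ o).cell i b)
  have e2 := lt_cell (o := o) (o' := o') hok hf h1 hμ hin hpT (show μ ≤ b by omega)
  have e3 := mtr_cell_lt (o := o) (o' := o') hok hf h1 hB hr hμB hμ hi hin hb
  have e4 : Stk.hc R.Q ((S3.mt R F μ o o').mtr i b)
      (fun ω => ((S3.mt R F μ o o').lt i ω, (lc R.C μ o).cell i b ω)) ≤
      Stk.hc R.Q ((S3.mt R F μ o o').mtr i b) (fun ω => ((lc R.C μ o).cell i b ω, (S3.mt R F μ o o').lt i ω)) :=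
    hc_mono_right R.Q _ fun ω ω' _ _ e => by
      have e5 : ((S3.mt R F μ o o').lt i ω, (lc R.C μ o).cell i b ω) =
        ((S3.mt R F μ o o').lt i ω', (lc R.C μ o).cell i b ω') := e
      exact Prod.ext (congrArg Prod.snd e5) (congrArg Prod.fst e5)
  linarith

/-- **S → V**, deep phi regime -/
theorem mtr0_cell (hpT : Fn R.Q (F.pf i) (R.C.T i)) (hb : 8 * μ ≤ b)
    (hR0 : R.C.rf i + 2 * (R.m * B) ≤ b + F.rk0 i) :
    Stk.hc R.Q ((S3.mt0 R F μ o o').mtr i b) ((lc R.C μ o).cell i b) ≤ 18 * μ * Real.log 2 + cJ K + cT (4 * K) := by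
  have e1 := hc_le_add R.Q ((S3.mt0 R F μ o o').mtr i b) ((S3.mt R F μ o o').lt i) ((lc R.C μ o).cell i b)
  have e2 := lt_cell (o := o) (o' := o') hok hf h1 hμ hin hpT (show μ ≤ b by omega)
  have e3 := mtr0_cell_lt (o := o) (o' := o') hok hf h1 hB hr hμB hμ hi hin hb hR0
  have e4 : Stk.hc R.Q ((S3.mt0 R F μ o o').mtr i b)
      (fun ω => ((S3.mt R F μ o o').lt i ω, (lc R.C μ o).cell i b ω)) ≤
      Stk.hc R.Q ((S3.mt0 R F μ o o').mtr i b) (fun ω => ((lc R.C μ o).cell i b ω, (S3.mt0 R F μ o o').lt i ω)) :=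
    hc_mono_right R.Q _ fun ω ω' _ _ e => by
      have e5 : ((S3.mt R F μ o o').lt i ω, (lc R.C μ o).cell i b ω) =
        ((S3.mt R F μ o o').lt i ω', (lc R.C μ o).cell i b ω') := e
      exact Prod.ext (congrArg Prod.snd e5) ((lt0_iff ω ω').2 (congrArg Prod.fst e5))
  linarith

/-- **V → S** -/
theorem cell_mtr (hb : 8 * μ ≤ b) :
    Stk.hc R.Q ((lc R.C μ o).cell i b) ((S3.mt R F μ o o').mtr i b) ≤
      27 * μ * Real.log 2 + cJ K + Stk.hc R.Q (R.C.T i) ((S3.mt R F μ o o').lt i) := by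
  have e1 := hc_le_add R.Q ((lc R.C μ o).cell i b) (R.C.T i) ((S3.mt R F μ o o').mtr i b)
  have e3 := cell_mtr_T (o := o) (o' := o') hok hf h1 hB hr hμB hμ hi hin hb
  have e4 : Stk.hc R.Q ((lc R.C μ o).cell i b) (fun ω => (R.C.T i ω, (S3.mt R F μ o o').mtr i b ω)) ≤
      Stk.hc R.Q ((lc R.C μ o).cell i b) (fun ω => ((S3.mt R F μ o o').mtr i b ω, R.C.T i ω)) :=
    hc_mono_right R.Q _ fun ω ω' _ _ e => by
      have e5 : (R.C.T i ω, (S3.mt R F μ o o').mtr i b ω) = (R.C.T i ω', (S3.mt R F μ o o').mtr i b ω') := e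
      exact Prod.ext (congrArg Prod.snd e5) (congrArg Prod.fst e5)
  have e5 : Stk.hc R.Q (R.C.T i) ((S3.mt R F μ o o').mtr i b) ≤ Stk.hc R.Q (R.C.T i) ((S3.mt R F μ o o').lt i) :=
    hc_mono_right R.Q _ fun ω ω' _ _ e => by
      have e5 : (S3.mt R F μ o o').mtr i b ω = (S3.mt R F μ o o').mtr i b ω' := e
      exact congrArg Prod.fst e5
  linarith

/-- **V → S**, deep phi regime -/
theorem cell_mtr0 (hb : 8 * μ ≤ b) (hR0 : R.C.rf i + 2 * (R.m * B) ≤ b + F.rk0 i) :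
    Stk.hc R.Q ((lc R.C μ o).cell i b) ((S3.mt0 R F μ o o').mtr i b) ≤
      27 * μ * Real.log 2 + cJ K + Stk.hc R.Q (R.C.T i) ((S3.mt R F μ o o').lt i) := by
  have e1 := hc_le_add R.Q ((lc R.C μ o).cell i b) (R.C.T i) ((S3.mt0 R F μ o o').mtr i b)
  have e3 := cell_mtr0_T (o := o) (o' := o') hok hf h1 hB hr hμB hμ hi hin hb hR0
  have e4 : Stk.hc R.Q ((lc R.C μ o).cell i b) (fun ω => (R.C.T i ω, (S3.mt0 R F μ o o').mtr i b ω)) ≤
      Stk.hc R.Q ((lc R.C μ o).cell i b) (fun ω => ((S3.mt0 R F μ o o').mtr i b ω, R.C.T i ω)) :=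
    hc_mono_right R.Q _ fun ω ω' _ _ e => by
      have e5 : (R.C.T i ω, (S3.mt0 R F μ o o').mtr i b ω) = (R.C.T i ω', (S3.mt0 R F μ o o').mtr i b ω') := e
      exact Prod.ext (congrArg Prod.snd e5) (congrArg Prod.fst e5)
  have e5 : Stk.hc R.Q (R.C.T i) ((S3.mt0 R F μ o o').mtr i b) ≤ Stk.hc R.Q (R.C.T i) ((S3.mt R F μ o o').lt i) :=
    hc_mono_right R.Q _ fun ω ω' _ _ e => by
      have e5 : (S3.mt0 R F μ o o').mtr i b ω = (S3.mt0 R F μ o o').mtr i b ω' := e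
      exact (lt0_iff ω ω').1 (congrArg Prod.fst e5)
  linarith

omit hf hB hr hi hin hμB in
/-- an earlier cell given the cell -/
theorem cell_back {T : Type} (Y : Ω → T) (hki : k ≤ i) (hl : (lc R.C μ o).Lev k b) :
    Stk.hc R.Q ((lc R.C μ o).cell k b) Y ≤ H118.nuK K + Stk.hc R.Q ((lc R.C μ o).cell i b) Y := by
  have e1 := hc_le_add R.Q ((lc R.C μ o).cell k b) ((lc R.C μ o).cell i b) Y
  have e2 : Stk.hc R.Q ((lc R.C μ o).cell k b) (fun ω => ((lc R.C μ o).cell i b ω, Y ω)) ≤ H118.nuK K :=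
    (hc_mono_right R.Q _ fun _ _ _ _ e => congrArg Prod.fst e).trans
      (H300.n2 R.Q (lc R.C μ o) h1 (fun ω hω => lc_Ok o hμ (hok.ok ω hω)) hki hl)
  linarith

/-- **an earlier cell given the cell with true digits** -/
theorem cell_mtr_of (hki : k ≤ i) (hl : (lc R.C μ o).Lev k b) (hb : 8 * μ ≤ b) :
    Stk.hc R.Q ((lc R.C μ o).cell k b) ((S3.mt R F μ o o').mtr i b) ≤
      H118.nuK K + (27 * μ * Real.log 2 + cJ K + Stk.hc R.Q (R.C.T i) ((S3.mt R F μ o o').lt i)) := by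
  have e1 := cell_back (o := o) hok h1 hμ ((S3.mt R F μ o o').mtr i b) hki hl
  have e2 := cell_mtr (o := o) (o' := o') hok hf h1 hB hr hμB hμ hi hin hb
  linarith

theorem cell_mtr0_of (hki : k ≤ i) (hl : (lc R.C μ o).Lev k b) (hb : 8 * μ ≤ b)
    (hR0 : R.C.rf i + 2 * (R.m * B) ≤ b + F.rk0 i) :
    Stk.hc R.Q ((lc R.C μ o).cell k b) ((S3.mt0 R F μ o o').mtr i b) ≤
      H118.nuK K + (27 * μ * Real.log 2 + cJ K + Stk.hc R.Q (R.C.T i) ((S3.mt R F μ o o').lt i)) := by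
  have e1 := cell_back (o := o) hok h1 hμ ((S3.mt0 R F μ o o').mtr i b) hki hl
  have e2 := cell_mtr0 (o := o) (o' := o') hok hf h1 hB hr hμB hμ hi hin hb hR0
  linarith

end hyp

end run

/-- difference of the potentials -/
theorem psi_chg2 {Ω : Type} [Fintype Ω] (P : Law Ω) {Λ ζ κ κ' : Type} (l : Ω → Λ) (Z : ℕ → Ω → ζ) (C : ℕ → Ω → κ)
    (C' : ℕ → Ω → κ') (i : ℕ) {c : ℝ} (h1 : hc P (C i) (C' i) ≤ c) (h2 : hc P (C' i) (C i) ≤ c) :
    |H833.psi P l Z C i - H833.psi P l Z C' i| ≤ c := by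
  have e1 := H833.psi_chg P l Z C C' i
  have e2 := H833.psi_chg P l Z C' C i
  rw [abs_le]
  constructor <;> linarith

end Vale.Agent.P106.U.H624
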