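import Vale.Agent.P106.U.H624.JunX
import Vale.Agent.P106.U.MIC.Stage
import Vale.Agent.P106.U.H652.Row
import Vale.Agent.P106.U.H336.Sw

/-!
# P106 / U / H624 : the junctions at a scale (helper624)

Over helper679's `St` : at every index of a young level outside few levels `Sw` (exceptional levels, levels with excess `> 1`,
level `0`, last level) the cell of the path and the letter of the young step determine one another at the price
`jm ≤ m log 2 · CJ x`, `CJ` universal.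

* `JN` : the numbers, `ev_JN`.
* `jS` : the price, `jS_le`.
* `JSt` : the junctions at one index, **`jun_st`**, **`row_j`**.
-/

set_option autoImplicit false

namespace Vale.Agent.P106.U.H624

open Finset Vale.Agent.P127 Vale.Agent.P127.Stk Vale.Agent.P127.U Filter
open Vale.Agent.P127.U.CellD (q2)
open Vale.Agent.P106.U.S5
open Vale.Agent.P106.U.MIC
open Vale.Agent.P106.U.H101 (lc)
open Vale.Agent.P106.U.H652 (Ev3 ev_nat ev_con ev_div ev_q20)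

/-! ### the numbers -/

/-- numbers of the junctions -/
structure JN (σ : Cst) (ρ : Thr) (x : ℕ) (κ : ℝ) (m B h : ℕ) : Prop where
  m1 : 1 ≤ m
  KB : KS ρ ≤ B
  μB : μS x m ≤ B
  n1 : (1 + m) / (B : ℝ) ≤ κ / 4
  n2 : KS ρ * (m + μS x m + 1) * q2 (μS x m / 8) * (2 * σ.K1 + 3) ≤ κ / 4
  n3 : KS ρ * (m + μS x m + 1) * q2 (μS x m / 8) * (m * (ρ.J + 1)) ≤ κ / 4 * h
  n4 : 2 * (m : ℝ) ≤ κ / 4 * h

theorem μS8 (x m : ℕ) : μS x m / 8 = 1000 * cN * xS x * m := by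
  unfold μS cμ
  rw [show 8000 * cN * xS x * m = 8 * (1000 * cN * xS x * m) by ring]
  exact Nat.mul_div_cancel_left _ (by norm_num)

theorem KS_nonneg (ρ : Thr) : 0 ≤ KS ρ := by
  unfold KS
  exact Even.pow_nonneg (by decide) _

theorem ev_JN (σ : Cst) (ρ : Thr) (x : ℕ) {κ : ℝ} (hκ : 0 < κ) : Ev3 (JN σ ρ x κ) := by
  have hc : 0 < cN := lt_of_lt_of_le (by norm_num) (le_max_left 800 cφ)
  have hx : 0 < xS x := by unfold xS; omega
  have h1 : Ev3 fun m _ _ => 1 ≤ m := Ev3.of_m (ev_nat 1)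
  have h2 : Ev3 fun _ B _ => KS ρ ≤ (B : ℝ) :=
    Ev3.of_B' fun _ => (ev_con (KS ρ) (κ := 1) one_pos).mono fun B h => by simpa using h
  have h3 : Ev3 fun m B _ => μS x m ≤ B := Ev3.of_B' fun m => ev_nat (μS x m)
  have h4 : Ev3 fun m B _ => (1 + m) / (B : ℝ) ≤ κ / 4 := Ev3.of_B' fun m => ev_div (1 + m) (by positivity)
  have h5 : Ev3 fun m _ _ => KS ρ * (m + μS x m + 1) * q2 (μS x m / 8) * (2 * σ.K1 + 3) ≤ κ / 4 := by
    refine Ev3.of_m ?_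
    filter_upwards [ev_q20 (KS ρ * (2 + cμ * xS x) * |2 * σ.K1 + 3|) 1 (1000 * cN * xS x) (by positivity)
      (κ := κ / 4) (by positivity), ev_nat 1] with m hm hm1
    refine le_trans ?_ hm
    rw [μS8, pow_one]
    have hm1' : (1 : ℝ) ≤ m := by exact_mod_cast hm1
    have q0 : 0 ≤ q2 (1000 * cN * xS x * m) := (Vale.Agent.P127.U.CellD.q2_pos _).le
    have k0 := KS_nonneg ρ
    have e1 : ((m : ℝ) + μS x m + 1) ≤ (2 + cμ * xS x) * m := by
      unfold μS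
      push_cast
      nlinarith
    have e2 : (0 : ℝ) ≤ (m : ℝ) + μS x m + 1 := by positivity
    have e3 : 2 * σ.K1 + 3 ≤ |2 * σ.K1 + 3| := le_abs_self _
    have e4 : 0 ≤ |2 * σ.K1 + 3| := abs_nonneg _
    calc KS ρ * ((m : ℝ) + μS x m + 1) * q2 (1000 * cN * xS x * m) * (2 * σ.K1 + 3)
        ≤ KS ρ * ((m : ℝ) + μS x m + 1) * q2 (1000 * cN * xS x * m) * |2 * σ.K1 + 3| :=
          mul_le_mul_of_nonneg_left e3 (by positivity)
      _ ≤ KS ρ * ((2 + cμ * xS x) * m) * q2 (1000 * cN * xS x * m) * |2 * σ.K1 + 3| := by gcongr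
      _ = _ := by ring
  have h6 : Ev3 fun m B h => KS ρ * (m + μS x m + 1) * q2 (μS x m / 8) * (m * (ρ.J + 1)) ≤ κ / 4 * h :=
    Ev3.of_h fun m _ => ev_con _ (by positivity)
  have h7 : Ev3 fun m _ h => 2 * (m : ℝ) ≤ κ / 4 * h := Ev3.of_h fun m _ => ev_con _ (by positivity)
  exact ((h1.and h2).and ((h3.and h4).and (h5.and (h6.and h7)))).mono fun m B h H =>
    ⟨H.1.1, H.1.2, H.2.1.1, H.2.1.2, H.2.2.1, H.2.2.2.1, H.2.2.2.2⟩

/-! ### the price -/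

/-- price of a junction -/
noncomputable def jS (ρ : Thr) (x m : ℕ) : ℝ := jM ρ.K (KS ρ) (μS x m) m + 1

/-- the universal constant -/
noncomputable def CJu (x : ℕ) : ℝ :=
  (27 * (cμ * xS x) * Real.log 2 + (cJ (10 ^ 15) + cT (4 * 10 ^ 15) + cS (10 ^ 15)) +
    (100 * 10 ^ 15) ^ 20 * (cμ * xS x + 1) + 2 * Real.log 2 + 1) / Real.log 2

theorem cJ_mono {K K2 : ℝ} (h : K ≤ K2) : cJ K ≤ cJ K2 := by
  unfold cJ
  have h1 : ((⌈32 * K⌉₊ : ℕ) : ℝ) ≤ (⌈32 * K2⌉₊ : ℕ) := by exact_mod_cast Nat.ceil_mono (by linarith)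
  have h0 : (0 : ℝ) ≤ ((⌈32 * K⌉₊ : ℕ) : ℝ) := Nat.cast_nonneg _
  have := Real.log_le_log (x := 1632 * ((⌈32 * K⌉₊ : ℕ) : ℝ) ^ 7 + 3) (y := 1632 * ((⌈32 * K2⌉₊ : ℕ) : ℝ) ^ 7 + 3)
    (by positivity) (by gcongr)
  linarith

theorem log_mono {K K2 a b : ℝ} (hK : K ≤ K2) (ha : 0 ≤ a) (hb : 0 < b) :
    Real.log (2 * ((⌈a * K⌉₊ : ℕ) : ℝ) + b) ≤ Real.log (2 * ((⌈a * K2⌉₊ : ℕ) : ℝ) + b) := by
  have h1 : ((⌈a * K⌉₊ : ℕ) : ℝ) ≤ (⌈a * K2⌉₊ : ℕ) := by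
    exact_mod_cast Nat.ceil_mono (mul_le_mul_of_nonneg_left hK ha)
  exact Real.log_le_log (by positivity) (by linarith)

theorem cT_mono {K K2 : ℝ} (h : K ≤ K2) : cT K ≤ cT K2 := by
  unfold cT
  exact add_le_add (log_mono h (by norm_num) (by norm_num)) (log_mono h (by norm_num) (by norm_num))

theorem cS_mono {K K2 : ℝ} (h : K ≤ K2) : cS K ≤ cS K2 := by
  unfold cS
  exact add_le_add (log_mono h (by norm_num) (by norm_num)) (log_mono h (by norm_num) (by norm_num))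

theorem CJu_nonneg (x : ℕ) : 0 ≤ CJu x := by
  have h1 := cJ_nonneg (10 ^ 15)
  have h2 := cT_nonneg (4 * 10 ^ 15)
  have h3 := cS_nonneg (10 ^ 15)
  have hl2 : 0 < Real.log 2 := Real.log_pos (by norm_num)
  unfold CJu
  positivity

theorem jS_le {ρ : Thr} (hρ : ρ.Ok) {x m : ℕ} (hm : 1 ≤ m) : jS ρ x m ≤ (m : ℝ) * Real.log 2 * CJu x := by
  have hl2 : 0 < Real.log 2 := Real.log_pos (by norm_num)
  have hm1 : (1 : ℝ) ≤ m := by exact_mod_cast hm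
  have k1 := hρ.K1
  have k2 := hρ.K2
  have e0 : (m : ℝ) * Real.log 2 * CJu x = m * (27 * (cμ * xS x) * Real.log 2 +
      (cJ (10 ^ 15) + cT (4 * 10 ^ 15) + cS (10 ^ 15)) +
      (100 * 10 ^ 15) ^ 20 * (cμ * xS x + 1) + 2 * Real.log 2 + 1) := by
    unfold CJu
    field_simp
  have a1 := cJ_mono k2
  have a2 : cT (4 * ρ.K) ≤ cT (4 * 10 ^ 15) := cT_mono (by linarith)
  have a3 := cS_mono k2
  have b1 := cJ_nonneg (10 ^ 15)
  have b2 := cT_nonneg (4 * 10 ^ 15)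
  have b3 := cS_nonneg (10 ^ 15)
  have a4 : KS ρ ≤ (100 * 10 ^ 15) ^ 20 := by
    unfold KS
    exact pow_le_pow_left₀ (by linarith) (by linarith) 20
  have a5 : ((μS x m : ℕ) : ℝ) = cμ * xS x * m := by
    unfold μS
    push_cast
    ring
  have a6 : KS ρ * (((μS x m : ℕ) : ℝ) + m) ≤ m * ((100 * 10 ^ 15) ^ 20 * (cμ * xS x + 1)) := by
    rw [a5]
    have : (0 : ℝ) ≤ cμ * xS x * m + m := by positivity
    calc KS ρ * (cμ * xS x * m + m) ≤ (100 * 10 ^ 15) ^ 20 * (cμ * xS x * m + m) :=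
          mul_le_mul_of_nonneg_right a4 this
      _ = _ := by ring
  have a7 : cJ (10 ^ 15) + cT (4 * 10 ^ 15) + cS (10 ^ 15) ≤ m * (cJ (10 ^ 15) + cT (4 * 10 ^ 15) + cS (10 ^ 15)) := by
    nlinarith
  rw [e0]
  unfold jS jM
  rw [a5] at a6 ⊢
  have a8 : 27 * ((cμ : ℝ) * xS x * m) * Real.log 2 = m * (27 * (cμ * xS x) * Real.log 2) := by ring
  rw [a8]
  have a9 : (m : ℝ) * (27 * (cμ * xS x) * Real.log 2 + (cJ (10 ^ 15) + cT (4 * 10 ^ 15) + cS (10 ^ 15)) +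
      (100 * 10 ^ 15) ^ 20 * (cμ * xS x + 1) + 2 * Real.log 2 + 1) =
      m * (27 * (cμ * xS x) * Real.log 2) + m * (cJ (10 ^ 15) + cT (4 * 10 ^ 15) + cS (10 ^ 15)) +
      m * ((100 * 10 ^ 15) ^ 20 * (cμ * xS x + 1)) + 2 * (m * Real.log 2) + m := by ring
  rw [a9]
  linarith

/-! ### the junctions -/

section

variable {η : ℝ} {x : ℕ} {σ : Cst} {ε : ℝ} {ρ : Thr} {g : Gv} {m B h : ℕ} {κ : ℝ}

/-- **the junctions at the index `i`** -/
structure JSt (s : St η x σ ε ρ g m B h) (jm : ℝ) (i : ℕ) : Prop where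
  cm : Stk.hc s.R.Q ((lc s.R.C (μS x m) s.o).cell i (s.R.m * s.R.b1))
    ((S3.mt s.R s.F (μS x m) s.o s.o').mtr i (s.R.m * s.R.b1)) ≤ jm
  mc : Stk.hc s.R.Q ((S3.mt s.R s.F (μS x m) s.o s.o').mtr i (s.R.m * s.R.b1))
    ((lc s.R.C (μS x m) s.o).cell i (s.R.m * s.R.b1)) ≤ jm
  cm0 : s.R.C.rf i + 2 * (s.R.m * B) ≤ s.R.m * s.R.b1 + s.F.rk0 i →
    Stk.hc s.R.Q ((lc s.R.C (μS x m) s.o).cell i (s.R.m * s.R.b1))
      ((S3.mt0 s.R s.F (μS x m) s.o s.o').mtr i (s.R.m * s.R.b1)) ≤ jm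
  mc0 : s.R.C.rf i + 2 * (s.R.m * B) ≤ s.R.m * s.R.b1 + s.F.rk0 i →
    Stk.hc s.R.Q ((S3.mt0 s.R s.F (μS x m) s.o s.o').mtr i (s.R.m * s.R.b1))
      ((lc s.R.C (μS x m) s.o).cell i (s.R.m * s.R.b1)) ≤ jm
  T : Stk.hc s.R.Q (s.R.C.T i) ((S3.mt s.R s.F (μS x m) s.o s.o').lt i) ≤ jm

open Classical in
/-- **the junctions at a scale** -/
theorem jun_st (hρ : ρ.Ok) (H : JN σ ρ x κ m B h) (s : St η x σ ε ρ g m B h) :
    ∃ Sw : Finset ℕ, (m : ℝ) * Sw.card ≤ κ * h ∧ s.Xs ⊆ Sw ∧ 0 ∈ Sw ∧ S3.lv s.R s.R.n ∈ Sw ∧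
      ∀ i ≤ s.R.n, S3.lv s.R i ∈ s.Vs → S3.lv s.R i ∉ Sw → JSt s (jS ρ x m) i := by
  have run := s.run
  have hP := run.ok.pth
  have hm : s.R.m = m := run.hm
  have hB1 : 1 ≤ B := by
    have h1 := two_le_B hρ.K1 H.KB
    omega
  obtain ⟨xx, hj, hx⟩ := junH_of s.f2o
  set S1 : Finset ℕ := (range (S3.lv s.R s.R.n + 1)).filter fun z => 1 < xl s.R xx z with hS1
  set Sw : Finset ℕ := (s.Xs ∪ S1) ∪ {0, S3.lv s.R s.R.n} with hSw
  have c1 : (S1.card : ℝ) ≤ S3.F2b s.R s.pn B (μS x m) (KS ρ) 0 := by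
    refine le_trans ?_ hx
    refine le_trans ?_ (xl_sum (R := s.R) hj.x0 S1)
    have : (S1.card : ℝ) = ∑ z ∈ S1, (1 : ℝ) := by rw [Finset.sum_const, nsmul_eq_mul, mul_one]
    rw [this]
    exact Finset.sum_le_sum fun z hz => (Finset.mem_filter.1 hz).2.le
  have c2 : (Sw.card : ℝ) ≤ s.Xs.card + S1.card + 2 := by
    have h1 : Sw.card ≤ (s.Xs ∪ S1).card + ({0, S3.lv s.R s.R.n} : Finset ℕ).card := Finset.card_union_le _ _
    have h2 : (s.Xs ∪ S1).card ≤ s.Xs.card + S1.card := Finset.card_union_le _ _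
    have h3 : ({0, S3.lv s.R s.R.n} : Finset ℕ).card ≤ 2 := Finset.card_le_two
    have : Sw.card ≤ s.Xs.card + S1.card + 2 := by omega
    exact_mod_cast this
  refine ⟨Sw, ?_, ?_, ?_, ?_, ?_⟩
  · -- the number
    have hxs := s.f2.xs
    rw [hm] at hxs
    have hh : s.R.h = h := run.hh
    have hJ : s.pn.J = ρ.J := run.hJ
    have hmn := H336.mn_le hP (K1 := σ.K1) (by
      have := run.qr
      rw [run.hq, run.hr0, hh]
      exact this)
    rw [hm, hh] at hmn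
    have hmr : (1 : ℝ) ≤ m := by exact_mod_cast H.m1
    have hBr : (0 : ℝ) < B := by exact_mod_cast hB1
    have hhr : (0 : ℝ) ≤ h := Nat.cast_nonneg _
    rw [hh] at hxs
    have hF : (m : ℝ) * S3.F2b s.R s.pn B (μS x m) (KS ρ) 0 = m * (h / B) +
        KS ρ * (m + μS x m + 1) * q2 (μS x m / 8) * (m * (s.R.n + ρ.J + 1)) := by
      unfold S3.F2b
      rw [hh, hm, hJ]
      ring
    have k0 := KS_nonneg ρ
    have q0 : 0 ≤ q2 (μS x m / 8) := (Vale.Agent.P127.U.CellD.q2_pos _).le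
    have w0 : 0 ≤ KS ρ * (m + μS x m + 1) * q2 (μS x m / 8) := by positivity
    have e1 : KS ρ * (m + μS x m + 1) * q2 (μS x m / 8) * (m * (s.R.n + ρ.J + 1)) ≤
        KS ρ * (m + μS x m + 1) * q2 (μS x m / 8) * ((2 * σ.K1 + 3) * h) +
        KS ρ * (m + μS x m + 1) * q2 (μS x m / 8) * (m * (ρ.J + 1)) := by
      rw [← mul_add]
      refine mul_le_mul_of_nonneg_left ?_ w0
      nlinarith
    have e2 : KS ρ * (m + μS x m + 1) * q2 (μS x m / 8) * ((2 * σ.K1 + 3) * h) ≤ κ / 4 * h := by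
      have := mul_le_mul_of_nonneg_right H.n2 hhr
      linarith
    have e3 := H.n3
    have e4 : (h : ℝ) / B + m * (h / B) ≤ κ / 4 * h := by
      have := mul_le_mul_of_nonneg_right H.n1 hhr
      have e : (h : ℝ) / B + m * (h / B) = (1 + m) / B * h := by field_simp
      rw [e]
      exact this
    have e5 := H.n4
    have e6 := mul_le_mul_of_nonneg_left c1 (show (0 : ℝ) ≤ m by linarith)
    have e7 := mul_le_mul_of_nonneg_left c2 (show (0 : ℝ) ≤ m by linarith)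
    rw [hF] at e6
    have e8 : (m : ℝ) * (s.Xs.card + S1.card + 2) = m * s.Xs.card + m * S1.card + 2 * m := by ring
    rw [e8] at e7
    linarith
  · exact (Finset.subset_union_left).trans Finset.subset_union_left
  · exact Finset.mem_union_right _ (by simp)
  · exact Finset.mem_union_right _ (by simp)
  · intro i hin hV hS
    rw [hSw] at hS
    simp only [Finset.mem_union, Finset.mem_insert, Finset.mem_singleton, not_or] at hS
    obtain ⟨⟨hX, hS1'⟩, h0, hn⟩ := hS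
    have hl : 1 ≤ S3.lv s.R i := by omega
    have ha1 := H833.lev_a hP (i := i) (by omega)
    have ha2 := H833.lev_a hP (i := s.R.n) (by omega)
    have e1 : H833.aN s.R i = S3.lv s.R i := rfl
    have e2 : H833.aN s.R s.R.n = S3.lv s.R s.R.n := rfl
    rw [e1] at ha1
    rw [e2] at ha2
    have hmono : S3.lv s.R i ≤ S3.lv s.R s.R.n := Nat.div_le_div_right (s.R.C.ha hin)
    have hlt : S3.lv s.R i < S3.lv s.R s.R.n := by omega
    have ha : s.R.C.a i < s.R.C.a s.R.n := by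
      rw [ha1, ha2]
      exact Nat.mul_lt_mul_of_pos_left hlt hP.m1
    have hx1 : xl s.R xx (S3.lv s.R i) ≤ 1 := by
      by_contra hc
      exact hS1' (Finset.mem_filter.2 ⟨Finset.mem_range.2 (by omega), not_le.1 hc⟩)
    have hμ : μS x m ≤ s.R.C.μ := by
      rw [run.hμ]
      exact H.μB.trans (Nat.le_mul_of_pos_left B H.m1)
    have hr : 100 * (s.R.m * B) ≤ s.R.r0 := by
      rw [hm, run.hr0]
      exact run.rm
    have hb : 8 * μS x m ≤ s.R.m * s.R.b1 := by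
      have h1 := run.cap.low
      have h2 := H.μB
      have h3 : s.R.b1 ≤ s.R.m * s.R.b1 := Nat.le_mul_of_pos_left _ hP.m1
      omega
    have hj1 : jM ρ.K (KS ρ) (μS x m) s.R.m + xl s.R xx (S3.lv s.R i) ≤ jS ρ x m := by
      unfold jS
      rw [hm]
      linarith
    have hj2 : jM ρ.K (KS ρ) (μS x m) s.R.m ≤ jS ρ x m := by
      unfold jS
      rw [hm]
      linarith
    have hpT := s.f2.pfT i (by omega)
    refine ⟨?_, ?_, fun hR0 => ?_, fun hR0 => ?_, ?_⟩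
    · exact (J1_mt run.ok s.f2 hρ.K1 H.KB hr H.μB hμ hj hin ha hl hV hX hb).trans hj1
    · exact (J2_mt run.ok s.f2 hρ.K1 H.KB hr H.μB hμ (KS_nonneg ρ) hin hV hpT hb).trans hj2
    · exact (J1_mt0 run.ok s.f2 hρ.K1 H.KB hr H.μB hμ hj hin ha hl hV hX hb hR0).trans hj1
    · exact (J2_mt0 run.ok s.f2 hρ.K1 H.KB hr H.μB hμ (KS_nonneg ρ) hin hV hpT hb hR0).trans hj2
    · have e := T_lt run.ok s.f2 (two_le_B hρ.K1 H.KB) hρ.K1 hj hin ha hl hV hX
      have c1 := cJ_nonneg ρ.K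
      have c2 := cT_nonneg (4 * ρ.K)
      have hl2 : 0 ≤ Real.log 2 := Real.log_nonneg (by norm_num)
      have c3 : 0 ≤ 27 * ((μS x m : ℕ) : ℝ) * Real.log 2 := by positivity
      refine e.trans ?_
      unfold jS jM
      rw [hm]
      linarith

end

/-- **[J]** the junctions, with the quantifiers of the rows -/
theorem row_j : ∃ CJ : ℕ → ℝ, (∀ x, 0 ≤ CJ x) ∧ Pre fun _ η x _ _ σ ε ρ => ∀ κ : ℝ, 0 < κ →
    Suf σ ε fun g m B h => ∀ s : St η x σ ε ρ g m B h, ∃ (Sw : Finset ℕ) (jm : ℝ), 0 ≤ jm ∧ jm ≤ s.mm * CJ x ∧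
      (m : ℝ) * Sw.card ≤ κ * h ∧ s.Xs ⊆ Sw ∧ 0 ∈ Sw ∧ S3.lv s.R s.R.n ∈ Sw ∧
      ∀ i ≤ s.R.n, S3.lv s.R i ∈ s.Vs → S3.lv s.R i ∉ Sw → JSt s jm i := by
  refine ⟨CJu, CJu_nonneg, ?_⟩
  intro b _ η _ x δh e3 _ _ _
  refine ⟨1, one_pos, fun θ _ _ => ⟨1, one_pos, fun δ1 _ _ σ _ _ => ⟨1, one_pos, fun ε _ _ ρ hρ κ hκ => ?_⟩⟩⟩
  refine Suf.of_ev3 fun g _ => ?_
  refine (Ev3.mono (ev_JN σ ρ x hκ) fun m B h H s => ?_).out
  obtain ⟨Sw, h1, h2, h3, h4, h5⟩ := jun_st hρ H s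
  have hl2 : 0 ≤ Real.log 2 := Real.log_nonneg (by norm_num)
  refine ⟨Sw, jS ρ x m, ?_, ?_, h1, h2, h3, h4, h5⟩
  · have := jM_nonneg (KS_nonneg ρ) ρ.K (μS x m) m
    unfold jS
    linarith
  · have e : s.mm = m * Real.log 2 := by
      unfold St.mm
      rw [s.run.hm]
    rw [e]
    exact jS_le hρ H.m1

end Vale.Agent.P106.U.H624
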