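import Vale.Agent.P106.U.H101.Cell2
import Vale.Agent.P106.U.H785.Mtr
import Vale.Agent.P106.U.H84.Cha

/-!
# P106 / U / H624 : junction of two kinds of cells at one level (helper624)

* `Clo.va` : closeness ⇒ the seven numbers are close; `hc_clo` : the cell has few values given `Y`.
* `jun_clo` : target `C`, source `C2` (same rays, own slopes, margin, level of the time): the cell `(i2, b)` of `C2` and the
  letter of `C` give `Clo i b (204 K^7 4^μ)` for `C`, if the functional of `C2` agrees to `C.rk i` digits and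
  `C.R i b ≤ C2.R i2 b + μ`.
* `low C ν` : the path with `rk - ν` digits; `clo_of_low`.
* `hc_jun`, `hc_jun_low` : the entropies.
-/

set_option autoImplicit false

namespace Vale.Agent.P106.U.H624

open Finset Vale.Agent.P127 Vale.Agent.P127.Stk
open Vale.Agent.P127.U.CellD
open Vale.Agent.P106.U.Cell Vale.Agent.P106.U.Cell.Pth
open Vale.Agent.P106.U.H101

section one

variable {Ω τ τ2 : Type} {C : Pth Ω τ} {C2 : Pth Ω τ2} {i i2 b : ℕ} {ω ω' : Ω} {K c : ℝ}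

/-- **close ⇒ the numbers are close**; numbers 0, 1, 2, 4 -/
theorem clo_va (h : C.Clo i b c ω ω') (hl : C.Lev i b) (hc : 1 ≤ c) :
    |C.va i b ω' 0 - C.va i b ω 0| ≤ 4 * c * q2 (C.lv i b 0 + C.μ) ∧
    |C.va i b ω' 1 - C.va i b ω 1| ≤ 4 * c * q2 (C.lv i b 1 + C.μ) ∧
    |C.va i b ω' 2 - C.va i b ω 2| ≤ 4 * c * q2 (C.lv i b 2 + C.μ) ∧
    |C.va i b ω' 4 - C.va i b ω 4| ≤ 4 * c * q2 (C.lv i b 4 + C.μ) := by
  obtain ⟨hT, hv, hN, hp⟩ := h
  obtain ⟨hb, hR⟩ := hl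
  refine ⟨?_, ?_, ?_, ?_⟩
  · rw [va0, va0, s_eq hT, lv0, show C.a i + b - C.μ + C.μ = C.a i + b by omega]
    have := q2_pos (C.a i + b)
    exact hN.X.trans (by nlinarith)
  · rw [va1, va1, lv1, show b - C.μ + C.μ = b by omega]
    have := q2_pos b
    exact hN.w.trans (by nlinarith)
  · rw [va2, va2, s_eq hT, lv2, show C.a i + b - C.μ + C.μ = C.a i + b by omega]
    have := q2_pos (C.a i + b)
    exact hN.N.trans (by nlinarith)
  · rw [va4, va4, sl_sub hT hv, lv4, show C.R i b - 3 * C.μ + C.μ = C.R i b - 2 * C.μ by omega]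
    have := q2_pos (C.R i b - 2 * C.μ)
    exact hp.trans (by nlinarith)

/-- **close ⇒ the numbers are close**; numbers 3, 5, 6, if the digits of the numbers 1 and 4 are the same -/
theorem clo_va' (h : C.Clo i b c ω ω') (hl : C.Lev i b) (hc : 1 ≤ c)
    (f1 : fl1 (C.lv i b 1) (C.va i b ω 1 + C.o 1) = fl1 (C.lv i b 1) (C.va i b ω' 1 + C.o 1))
    (f4 : fl1 (C.lv i b 4) (C.va i b ω 4 + C.o 4) = fl1 (C.lv i b 4) (C.va i b ω' 4 + C.o 4)) (k : Fin 7) :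
    |C.va i b ω' k - C.va i b ω k| ≤ 4 * c * q2 (C.lv i b k + C.μ) := by
  obtain ⟨g0, g1, g2, g4⟩ := clo_va h hl hc
  obtain ⟨hT, hv, hN, hp⟩ := h
  obtain ⟨hb, hR⟩ := hl
  have eF : C.Fr i b (C.R i b - 3 * C.μ) ω' = C.Fr i b (C.R i b - 3 * C.μ) ω := Fr_eq hT hv f4
  have hF := C.Fr_ph i b (C.R i b - 3 * C.μ) ω
  have g5 : ∀ l, (C.Fr i b (C.R i b - 3 * C.μ) ω).gd l (C.s i ω) = (C.F i ω).gd l (C.s i ω) +
      ((C.F i ω).ph - (C.Fr i b (C.R i b - 3 * C.μ) ω).ph) * l.v := fun l => Fu.gd_ph _ _ _ _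
  have g6 : ∀ l, (C.Fr i b (C.R i b - 3 * C.μ) ω).g l (C.s i ω) = (C.F i ω).g l (C.s i ω) +
      ((C.F i ω).ph - (C.Fr i b (C.R i b - 3 * C.μ) ω).ph) * l.X (C.s i ω) :=
    fun l => Fu.g_ph _ _ _ _
  have h3 : |C.va i b ω' 3 - C.va i b ω 3| ≤ 4 * c * q2 (C.lv i b 3 + C.μ) := by
    rw [va3, va3, s_eq hT, lv3, show C.a i + 2 * b - 3 * C.μ + C.μ = C.a i + 2 * b - 2 * C.μ by omega,
      Zs_sub hv f1]
    have q := q2_pos (C.a i + 2 * b - 2 * C.μ)
    have t1 : |((C.l ω).v - rd b (C.l ω).v) * ((C.l ω').X (C.s i ω) - (C.l ω).X (C.s i ω))| ≤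
        c * q2 (C.a i + 2 * b - 2 * C.μ) := by
      have e := rd_err b (C.l ω).v
      rw [abs_sub_comm] at e
      refine (abs_mul_le e hN.X).trans ?_
      calc q2 b * (c * q2 (C.a i + b)) = c * (q2 b * q2 (C.a i + b)) := by ring
        _ ≤ _ := mul_le_mul_of_nonneg_left (by rw [← q2_add]; exact q2_le (by omega)) (by linarith)
    have t2 : |((C.l ω).w - C.ro 1 (b - C.μ) (C.l ω).w) *
        ((C.l ω').N (C.s i ω) - (C.l ω).N (C.s i ω))| ≤ c * q2 (C.a i + 2 * b - 2 * C.μ) := by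
      refine (abs_mul_le (C.ro_err 1 (b - C.μ) (C.l ω).w) hN.N).trans ?_
      calc q2 (b - C.μ) * (c * q2 (C.a i + b)) = c * (q2 (b - C.μ) * q2 (C.a i + b)) := by ring
        _ ≤ _ := mul_le_mul_of_nonneg_left (by rw [← q2_add]; exact q2_le (by omega)) (by linarith)
    have t3 : c * q2 (C.a i + 2 * b - C.μ) ≤ c * q2 (C.a i + 2 * b - 2 * C.μ) :=
      mul_le_mul_of_nonneg_left (q2_le (by omega)) (by linarith)
    have t4 := hN.z
    rw [abs_le] at t1 t2 t4 ⊢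
    constructor
    · nlinarith [t1.1, t2.1, t4.1]
    · nlinarith [t1.2, t2.2, t4.2]
  have h5 : |C.va i b ω' 5 - C.va i b ω 5| ≤ 4 * c * q2 (C.lv i b 5 + C.μ) := by
    rw [va5, va5, s_eq hT, eF, g5, g5, lv5,
      show C.R i b + b - 5 * C.μ + C.μ = C.R i b + b - 4 * C.μ by omega]
    have q := q2_pos (C.R i b + b - 4 * C.μ)
    have t1 : |((C.F i ω).ph - (C.Fr i b (C.R i b - 3 * C.μ) ω).ph) *
        ((C.l ω').v - (C.l ω).v)| ≤ q2 (C.R i b + b - 4 * C.μ) := by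
      refine (abs_mul_le hF hN.v).trans ?_
      rw [← q2_add]; exact q2_le (by omega)
    have t2 := hN.c
    rw [abs_le] at t1 t2 ⊢
    constructor
    · nlinarith [t1.1, t2.1]
    · nlinarith [t1.2, t2.2]
  have h6 : |C.va i b ω' 6 - C.va i b ω 6| ≤ 4 * c * q2 (C.lv i b 6 + C.μ) := by
    rw [va6, va6, s_eq hT, eF, g6, g6, lv6,
      show C.a i + b + C.R i b - 7 * C.μ + C.μ = C.a i + b + C.R i b - 6 * C.μ by omega]
    have q := q2_pos (C.a i + b + C.R i b - 6 * C.μ)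
    have t1 : |((C.F i ω).ph - (C.Fr i b (C.R i b - 3 * C.μ) ω).ph) *
        ((C.l ω').X (C.s i ω) - (C.l ω).X (C.s i ω))| ≤ c * q2 (C.a i + b + C.R i b - 6 * C.μ) := by
      refine (abs_mul_le hF hN.X).trans ?_
      calc q2 (C.R i b - 3 * C.μ) * (c * q2 (C.a i + b)) =
          c * (q2 (C.R i b - 3 * C.μ) * q2 (C.a i + b)) := by ring
        _ ≤ _ := mul_le_mul_of_nonneg_left (by rw [← q2_add]; exact q2_le (by omega)) (by linarith)
    have t2 := hN.g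
    rw [abs_le] at t1 t2 ⊢
    constructor
    · nlinarith [t1.1, t2.1]
    · nlinarith [t1.2, t2.2]
  fin_cases k
  · exact g0
  · exact g1
  · exact g2
  · exact h3
  · exact g4
  · exact h5
  · exact h6

/-- **closeness for the target `C`, from a cell of the source `C2` at the same level** -/
theorem jun_clo (h1 : 1 ≤ K) (hl : C2.l = C.l) (hp : C2.p = C.p) (hK : C.Ok K ω) (hK' : C.Ok K ω')
    (hK2 : C2.Ok K ω) (hK2' : C2.Ok K ω') (hμ : C2.μ = C.μ) (hf : C.rf i ≤ C2.rf i2)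
    (hT2 : Two C C2 K i i2 ω) (hli : C.Lev i b) (hlj : C2.Lev i2 b) (ha : C.a i = C2.a i2)
    (hR : C.R i b ≤ C2.R i2 b + C.μ)
    (hT : C.T i ω = C.T i ω') (h : C2.cell i2 b ω = C2.cell i2 b ω') :
    C.Clo i b (204 * K ^ 7 * 4 ^ C.μ) ω ω' := by
  have hN := core2 h1 hl hp hK hK2 hμ hf hT2 hli hlj le_rfl (by omega) h
  have hph := core2_ph h1 hl hp hK hK' hK2 hK2' hμ hf hT2 hli hlj le_rfl hT h
  have hv : fl1 b (C.l ω).v = fl1 b (C.l ω').v := by
    have := (cell_iff.1 h).2.1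
    rwa [hl] at this
  rw [← ha] at hN
  obtain ⟨hb8, hRi⟩ := hli
  have hlj2 := hlj.2
  rw [hμ] at hlj2
  have k27 : K ^ 2 ≤ K ^ 7 := pow_le_pow_right₀ h1 (by norm_num)
  have k47 : K ^ 4 ≤ K ^ 7 := pow_le_pow_right₀ h1 (by norm_num)
  have k57 : K ^ 5 ≤ K ^ 7 := pow_le_pow_right₀ h1 (by norm_num)
  have k7 : 1 ≤ K ^ 7 := one_le_pow₀ h1
  have u4 : (4 : ℝ) ^ C.μ = 2 ^ (2 * C.μ) := by rw [pow_mul]; norm_num
  have u1 : (1 : ℝ) ≤ 4 ^ C.μ := one_le_pow₀ (by norm_num)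
  -- a loss of two margins
  have sh : ∀ n m : ℕ, 2 * C.μ ≤ n → n ≤ m + 2 * C.μ → q2 m ≤ 4 ^ C.μ * q2 n := by
    intro n m h2 h3
    calc q2 m ≤ q2 (n - 2 * C.μ) := q2_le (by omega)
      _ = 4 ^ C.μ * q2 n := by rw [u4, Cell.q2_sub h2]
  set V : ℝ := 4 ^ C.μ with hV
  have c1 : (204 : ℝ) * K ^ 7 * V ≥ 204 * V := by nlinarith
  have s1 : ∀ (x : ℝ) (n : ℕ), x ≤ 204 * K ^ 7 → x * (V * q2 n) ≤ 204 * K ^ 7 * V * q2 n := by
    intro x n hx
    have := q2_pos n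
    have hvq : 0 ≤ V * q2 n := by positivity
    calc x * (V * q2 n) ≤ 204 * K ^ 7 * (V * q2 n) := mul_le_mul_of_nonneg_right hx hvq
      _ = _ := by ring
  refine ⟨hT, hv, hN.mono le_rfl ?_ ?_ ?_ ?_ ?_ ?_, ?_⟩
  · have t1 := sh b (b + 2 * C.μ) (by omega) (by omega)
    calc 10 * K ^ 2 * q2 (b + 2 * C.μ) ≤ 10 * K ^ 7 * (V * q2 b) :=
          mul_le_mul (by linarith) t1 (q2_pos _).le (by linarith)
      _ ≤ _ := s1 _ _ (by linarith)
  · have t1 := sh (C.a i + b) (C.a i + b - C.μ) (by omega) (by omega)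
    have t2 : q2 (C.a i) * q2 b ≤ V * q2 (C.a i + b) := by
      rw [← q2_add]
      exact sh _ _ (by omega) (by omega)
    calc _ ≤ 2 * (V * q2 (C.a i + b)) := by linarith
      _ ≤ _ := s1 _ _ (by linarith)
  · have t1 := sh (C.a i + b) (C.a i + b - C.μ) (by omega) (by omega)
    have t2 : q2 (C.a i) * (10 * K ^ 2 * q2 (b + 2 * C.μ)) ≤ 10 * K ^ 7 * (V * q2 (C.a i + b)) := by
      calc q2 (C.a i) * (10 * K ^ 2 * q2 (b + 2 * C.μ)) = 10 * K ^ 2 * (q2 (C.a i) * q2 (b + 2 * C.μ)) := by ring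
        _ = 10 * K ^ 2 * q2 (C.a i + (b + 2 * C.μ)) := by rw [← q2_add]
        _ ≤ _ := mul_le_mul (by linarith) (sh _ _ (by omega) (by omega)) (q2_pos _).le (by linarith)
    have hvq : 0 ≤ V * q2 (C.a i + b) := by have := q2_pos (C.a i + b); positivity
    calc _ ≤ (1 + 10 * K ^ 7) * (V * q2 (C.a i + b)) := by linarith
      _ ≤ _ := s1 _ _ (by linarith)
  · have t1 := sh (C.a i + 2 * b - C.μ) (C.a i + 2 * b - 3 * C.μ) (by omega) (by omega)
    have t2 : q2 (C.a i) * ((q2 b ^ 2 + (10 * K ^ 2 * q2 (b + 2 * C.μ)) ^ 2) / 2) ≤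
        51 * K ^ 7 * (V * q2 (C.a i + 2 * b - C.μ)) := by
      have r1 : q2 b ^ 2 = q2 (2 * b) := by rw [pow_two, ← q2_add]; congr 1; omega
      have r2 : q2 (b + 2 * C.μ) ^ 2 ≤ q2 (2 * b) := by
        rw [pow_two, ← q2_add]; exact q2_le (by omega)
      have r3 : 1 ≤ K ^ 4 := one_le_pow₀ h1
      have r4 := q2_pos (2 * b)
      have r5 : (q2 b ^ 2 + (10 * K ^ 2 * q2 (b + 2 * C.μ)) ^ 2) / 2 ≤ 51 * K ^ 7 * q2 (2 * b) := by
        calc _ = q2 (2 * b) / 2 + 50 * K ^ 4 * q2 (b + 2 * C.μ) ^ 2 := by rw [mul_pow, r1]; ring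
          _ ≤ K ^ 7 * q2 (2 * b) + 50 * K ^ 7 * q2 (2 * b) := by
            apply add_le_add
            · nlinarith
            · exact mul_le_mul (by linarith) r2 (by positivity) (by linarith)
          _ = _ := by ring
      calc _ ≤ q2 (C.a i) * (51 * K ^ 7 * q2 (2 * b)) := mul_le_mul_of_nonneg_left r5 (q2_pos _).le
        _ = 51 * K ^ 7 * (q2 (C.a i) * q2 (2 * b)) := by ring
        _ = 51 * K ^ 7 * q2 (C.a i + 2 * b) := by rw [← q2_add]
        _ ≤ _ := mul_le_mul_of_nonneg_left (sh _ _ (by omega) (by omega)) (by linarith)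
    have hvq : 0 ≤ V * q2 (C.a i + 2 * b - C.μ) := by have := q2_pos (C.a i + 2 * b - C.μ); positivity
    calc _ ≤ (3 + 51 * K ^ 7) * (V * q2 (C.a i + 2 * b - C.μ)) := by linarith
      _ ≤ _ := s1 _ _ (by linarith)
  · have t1 := sh (C.R i b + b - 4 * C.μ) (C2.R i2 b + b - 5 * C.μ) (by omega) (by omega)
    have t2 := sh (C.R i b + b - 4 * C.μ) (C.R i b + b - 3 * C.μ) (by omega) (by omega)
    have hvq : 0 ≤ V * q2 (C.R i b + b - 4 * C.μ) := by
      have := q2_pos (C.R i b + b - 4 * C.μ); positivity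
    calc _ ≤ 2 * K ^ 7 * (V * q2 (C.R i b + b - 4 * C.μ)) + 131 * K ^ 7 * (V * q2 (C.R i b + b - 4 * C.μ)) := by
          refine add_le_add ?_ ?_
          · exact mul_le_mul (by linarith) t1 (q2_pos _).le (by linarith)
          · exact mul_le_mul_of_nonneg_left t2 (by linarith)
      _ = (133 * K ^ 7) * (V * q2 (C.R i b + b - 4 * C.μ)) := by ring
      _ ≤ _ := s1 _ _ (by linarith)
  · have t1 := sh (C.a i + b + C.R i b - 6 * C.μ) (C.a i + b + C2.R i2 b - 7 * C.μ) (by omega) (by omega)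
    have t2 := sh (C.a i + b + C.R i b - 6 * C.μ) (C.a i + b + C.R i b - 3 * C.μ) (by omega) (by omega)
    have t3 : q2 (C.a i) * (2 * K ^ 2 * q2 (C2.R i2 b + b - 5 * C.μ) + 131 * K ^ 7 * q2 (C.R i b + b - 3 * C.μ)) ≤
        133 * K ^ 7 * (V * q2 (C.a i + b + C.R i b - 6 * C.μ)) := by
      have e1 : q2 (C.a i) * q2 (C2.R i2 b + b - 5 * C.μ) ≤ V * q2 (C.a i + b + C.R i b - 6 * C.μ) := by
        rw [← q2_add]
        exact sh _ _ (by omega) (by omega)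
      have e2 : q2 (C.a i) * q2 (C.R i b + b - 3 * C.μ) ≤ V * q2 (C.a i + b + C.R i b - 6 * C.μ) := by
        rw [← q2_add]
        exact sh _ _ (by omega) (by omega)
      have hq := q2_pos (C.a i)
      calc _ = 2 * K ^ 2 * (q2 (C.a i) * q2 (C2.R i2 b + b - 5 * C.μ)) +
            131 * K ^ 7 * (q2 (C.a i) * q2 (C.R i b + b - 3 * C.μ)) := by ring
        _ ≤ 2 * K ^ 7 * (V * q2 (C.a i + b + C.R i b - 6 * C.μ)) +
            131 * K ^ 7 * (V * q2 (C.a i + b + C.R i b - 6 * C.μ)) := by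
          refine add_le_add ?_ ?_
          · exact mul_le_mul (by linarith) e1 (by have := q2_pos (C2.R i2 b + b - 5 * C.μ); positivity) (by linarith)
          · exact mul_le_mul_of_nonneg_left e2 (by linarith)
        _ = _ := by ring
    have hvq : 0 ≤ V * q2 (C.a i + b + C.R i b - 6 * C.μ) := by
      have := q2_pos (C.a i + b + C.R i b - 6 * C.μ); positivity
    calc _ ≤ 2 * K ^ 7 * (V * q2 (C.a i + b + C.R i b - 6 * C.μ)) + 9 * K ^ 7 * (V * q2 (C.a i + b + C.R i b - 6 * C.μ)) +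
          133 * K ^ 7 * (V * q2 (C.a i + b + C.R i b - 6 * C.μ)) := by
          refine add_le_add (add_le_add ?_ ?_) t3
          · exact mul_le_mul (by linarith) t1 (q2_pos _).le (by linarith)
          · exact mul_le_mul_of_nonneg_left t2 (by linarith)
      _ = (144 * K ^ 7) * (V * q2 (C.a i + b + C.R i b - 6 * C.μ)) := by ring
      _ ≤ _ := s1 _ _ (by linarith)
  · have t1 := sh (C.R i b - 2 * C.μ) (C2.R i2 b - 3 * C.μ) (by omega) (by omega)
    have t2 := sh (C.R i b - 2 * C.μ) (C.R i b - C.μ) (by omega) (by omega)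
    refine hph.trans ?_
    calc _ ≤ 2 * K ^ 7 * (V * q2 (C.R i b - 2 * C.μ)) + 50 * K ^ 7 * (V * q2 (C.R i b - 2 * C.μ)) := by
          refine add_le_add ?_ ?_
          · exact mul_le_mul (by linarith) t1 (q2_pos _).le (by linarith)
          · exact mul_le_mul (by linarith) t2 (q2_pos _).le (by linarith)
      _ = (52 * K ^ 7) * (V * q2 (C.R i b - 2 * C.μ)) := by ring
      _ ≤ _ := s1 _ _ (by linarith)

/-! ### lower precision of the line -/

/-- the path with `ν` digits less of the line -/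
def low (C : Pth Ω τ) (ν : ℕ) : Pth Ω τ :=
  { C with
    rk := fun i => C.rk i - ν
    hk := fun _ _ h => Nat.sub_le_sub_right (C.hk h) _
    hkf := fun i => (Nat.sub_le _ _).trans (C.hkf i) }

theorem low_F (ν i : ℕ) (ω : Ω) : (low C ν).F i ω = C.F i ω := rfl

theorem low_R (ν i b : ℕ) : C.R i b ≤ (low C ν).R i b + ν := by
  rw [R_eq, R_eq]
  show min (C.rk i + b) (C.rf i) ≤ min (C.rk i - ν + b) (C.rf i) + ν
  omega

theorem low_R' (ν i b : ℕ) : (low C ν).R i b ≤ C.R i b := by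
  rw [R_eq, R_eq]
  show min (C.rk i - ν + b) (C.rf i) ≤ min (C.rk i + b) (C.rf i)
  omega

theorem low_Ok {ν : ℕ} (hK : 0 ≤ K) (h : C.Ok K ω) : (low C ν).Ok K ω := by
  refine ⟨h.v1, h.w1, h.p1, h.n1, h.n2, h.k1, h.a1, fun i j hij => ?_⟩
  have h1 := h.ag i j hij
  have h2 : K * q2 (C.rk i) ≤ K * q2 (C.rk i - ν) := mul_le_mul_of_nonneg_left (q2_le (Nat.sub_le _ _)) hK
  exact ⟨h1.cN.trans h2, h1.ka.trans h2, h1.al.trans h2⟩

/-- closeness for the lowered path gives closeness for the path -/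
theorem clo_of_low {ν : ℕ} (hR : C.R i b ≤ (low C ν).R i b + C.μ) (hc : 0 ≤ c) (hl : (low C ν).Lev i b)
    (h : (low C ν).Clo i b c ω ω') : C.Clo i b (c * 2 ^ C.μ) ω ω' := by
  obtain ⟨hT, hv, hN, hp⟩ := h
  have hR' := low_R' (C := C) ν i b
  obtain ⟨hb, hRl⟩ := hl
  change 8 * C.μ ≤ b at hb
  change 8 * C.μ ≤ (low C ν).R i b at hRl
  have u1 : (1 : ℝ) ≤ 2 ^ C.μ := one_le_pow₀ (by norm_num)
  have sh : ∀ n m : ℕ, C.μ ≤ n → n ≤ m + C.μ → c * q2 m ≤ c * 2 ^ C.μ * q2 n := by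
    intro n m h2 h3
    have : q2 m ≤ 2 ^ C.μ * q2 n := by
      rw [← Cell.q2_sub h2]
      exact q2_le (by omega)
    calc c * q2 m ≤ c * (2 ^ C.μ * q2 n) := mul_le_mul_of_nonneg_left this hc
      _ = _ := by ring
  refine ⟨hT, hv, hN.mono le_rfl ?_ ?_ ?_ ?_ ?_ ?_, ?_⟩
  · exact sh _ _ (by omega) (by omega)
  · exact sh _ _ (by omega) (by show _ ≤ C.a i + b + C.μ; omega)
  · exact sh _ _ (by omega) (by show _ ≤ C.a i + b + C.μ; omega)
  · exact sh _ _ (by omega) (by show _ ≤ C.a i + 2 * b - C.μ + C.μ; omega)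
  · exact sh _ _ (by omega) (by show _ ≤ (low C ν).R i b + b - 4 * C.μ + C.μ; omega)
  · exact sh _ _ (by omega) (by show _ ≤ C.a i + b + (low C ν).R i b - 6 * C.μ + C.μ; omega)
  · exact hp.trans (sh _ _ (by omega) (by show _ ≤ (low C ν).R i b - 2 * C.μ + C.μ; omega))

end one

/-! ### entropy -/

section ent

variable {Ω : Type} [Fintype Ω] {τ τ2 T : Type} {C : Pth Ω τ} {C2 : Pth Ω τ2} {i i2 b : ℕ} {K c : ℝ}

open Classical in
/-- **few values of a cell** -/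
theorem hc_clo (P : Law Ω) (Y : Ω → T) (hl : C.Lev i b) (hc1 : 1 ≤ c) {N : ℕ} (hN : 4 * c * q2 C.μ ≤ N)
    (h : ∀ ω ω', 0 < P.w ω → 0 < P.w ω' → Y ω = Y ω' → C.Clo i b c ω ω') :
    hc P (C.cell i b) Y ≤ 9 * Real.log (2 * N + 3) := by
  have hcard : ∀ z : ℤ, (Finset.Icc (z - (N + 1)) (z + (N + 1))).card = 2 * N + 3 := by
    intro z
    rw [Int.card_Icc]
    omega
  have hr : ∀ (k : Fin 7) (ω ω' : Ω), |C.va i b ω' k - C.va i b ω k| ≤ 4 * c * q2 (C.lv i b k + C.μ) →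
      fl1 (C.lv i b k) (C.va i b ω' k + C.o k) ∈
        Finset.Icc (fl1 (C.lv i b k) (C.va i b ω k + C.o k) - (N + 1))
          (fl1 (C.lv i b k) (C.va i b ω k + C.o k) + (N + 1)) := by
    intro k ω ω' h1
    have h2 : |(C.va i b ω' k + C.o k) - (C.va i b ω k + C.o k)| ≤ N * q2 (C.lv i b k) := by
      rw [add_sub_add_right_eq_sub]
      refine h1.trans ?_
      rw [q2_add]
      have := q2_pos (C.lv i b k)
      calc 4 * c * (q2 (C.lv i b k) * q2 C.μ) = 4 * c * q2 C.μ * q2 (C.lv i b k) := by ring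
        _ ≤ _ := mul_le_mul_of_nonneg_right hN this.le
    have h3 := abs_le.1 (H84.fl1_range h2)
    rw [Finset.mem_Icc]
    constructor <;> linarith [h3.1, h3.2]
  set X : Ω → ℤ × ℤ := fun ω => (fl1 (C.lv i b 1) (C.va i b ω 1 + C.o 1), fl1 (C.lv i b 4) (C.va i b ω 4 + C.o 4)) with hX
  have e1 : hc P X Y ≤ Real.log (((2 * N + 3) * (2 * N + 3) : ℕ) : ℝ) := by
    refine hc_le_log P _ _ _ fun ω hω => ⟨
      (Finset.Icc ((X ω).1 - (N + 1)) ((X ω).1 + (N + 1))) ×ˢ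
        (Finset.Icc ((X ω).2 - (N + 1)) ((X ω).2 + (N + 1))), ?_, fun ω' hω' e => ?_⟩
    · rw [Finset.card_product, hcard, hcard]
    · obtain ⟨g0, g1, g2, g4⟩ := clo_va (h ω ω' hω hω' e.symm) hl hc1
      rw [Finset.mem_product]
      exact ⟨hr 1 ω ω' g1, hr 4 ω ω' g4⟩
  have e2 : hc P (C.cell i b) (fun ω => (X ω, Y ω)) ≤ Real.log (((2 * N + 3) ^ 7 : ℕ) : ℝ) := by
    refine hc_le_log P _ _ _ fun ω hω => ⟨
      (Fintype.piFinset fun k => Finset.Icc (fl1 (C.lv i b k) (C.va i b ω k + C.o k) - (N + 1))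
          (fl1 (C.lv i b k) (C.va i b ω k + C.o k) + (N + 1))).image
        (fun z => (C.T i ω, (fl1 b (C.l ω).v, z))), ?_, fun ω' hω' e => ?_⟩
    · refine Finset.card_image_le.trans ?_
      rw [Fintype.card_piFinset, Finset.prod_congr rfl (g := fun _ => 2 * N + 3), Finset.prod_const,
        Finset.card_univ, Fintype.card_fin]
      intro k _
      exact hcard _
    · have eX : X ω' = X ω := congrArg Prod.fst e
      have eY : Y ω' = Y ω := congrArg Prod.snd e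
      have f1 : fl1 (C.lv i b 1) (C.va i b ω' 1 + C.o 1) = fl1 (C.lv i b 1) (C.va i b ω 1 + C.o 1) :=
        congrArg Prod.fst eX
      have f4 : fl1 (C.lv i b 4) (C.va i b ω' 4 + C.o 4) = fl1 (C.lv i b 4) (C.va i b ω 4 + C.o 4) :=
        congrArg Prod.snd eX
      have hC := h ω ω' hω hω' eY.symm
      rw [Finset.mem_image]
      refine ⟨fun k => fl1 (C.lv i b k) (C.va i b ω' k + C.o k), ?_, ?_⟩
      · rw [Fintype.mem_piFinset]
        intro k
        exact hr k ω ω' (clo_va' hC hl hc1 f1.symm f4.symm k)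
      · unfold Pth.cell Pth.dg
        rw [hC.T, hC.v]
  have e3 := hc_le_add P (C.cell i b) X Y
  have e4 : Real.log (((2 * N + 3) * (2 * N + 3) : ℕ) : ℝ) = 2 * Real.log (2 * N + 3) := by
    push_cast
    rw [Real.log_mul (by positivity) (by positivity)]
    ring
  have e5 : Real.log (((2 * N + 3) ^ 7 : ℕ) : ℝ) = 7 * Real.log (2 * N + 3) := by
    push_cast
    rw [Real.log_pow]
    norm_num
  rw [e4] at e1
  rw [e5] at e2
  linarith

theorem log_N (M μ : ℕ) : Real.log (2 * ((816 * M ^ 7 * 4 ^ μ : ℕ) : ℝ) + 3) ≤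
    2 * μ * Real.log 2 + Real.log (1632 * M ^ 7 + 3) := by
  have h1 : (2 : ℝ) * μ * Real.log 2 = Real.log (4 ^ μ) := by
    rw [Real.log_pow, show (4 : ℝ) = 2 ^ 2 by norm_num, Real.log_pow]
    push_cast
    ring
  have u1 : (1 : ℝ) ≤ 4 ^ μ := one_le_pow₀ (by norm_num)
  rw [h1, ← Real.log_mul (by positivity) (by positivity)]
  refine Real.log_le_log (by positivity) ?_
  push_cast
  nlinarith

theorem log_N' (M μ : ℕ) : Real.log (2 * ((816 * M ^ 7 * 8 ^ μ : ℕ) : ℝ) + 3) ≤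
    3 * μ * Real.log 2 + Real.log (1632 * M ^ 7 + 3) := by
  have h1 : (3 : ℝ) * μ * Real.log 2 = Real.log (8 ^ μ) := by
    rw [Real.log_pow, show (8 : ℝ) = 2 ^ 3 by norm_num, Real.log_pow]
    push_cast
    ring
  have u1 : (1 : ℝ) ≤ 8 ^ μ := one_le_pow₀ (by norm_num)
  rw [h1, ← Real.log_mul (by positivity) (by positivity)]
  refine Real.log_le_log (by positivity) ?_
  push_cast
  nlinarith

/-- **junction** : the cell of `C` given the cell of `C2` at the same level, and the letter of `C` -/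
theorem hc_jun (P : Law Ω) (h1 : 1 ≤ K) {M : ℕ} (hM : K ≤ M) (hl : C2.l = C.l) (hp : C2.p = C.p) (hμ : C2.μ = C.μ)
    (hf : C.rf i ≤ C2.rf i2) (hli : C.Lev i b) (hlj : C2.Lev i2 b) (ha : C.a i = C2.a i2)
    (hR : C.R i b ≤ C2.R i2 b + C.μ) (hK : ∀ ω, 0 < P.w ω → C.Ok K ω) (hK2 : ∀ ω, 0 < P.w ω → C2.Ok K ω)
    (hT2 : ∀ ω, 0 < P.w ω → Two C C2 K i i2 ω) :
    hc P (C.cell i b) (fun ω => (C2.cell i2 b ω, C.T i ω)) ≤
      18 * C.μ * Real.log 2 + 9 * Real.log (1632 * M ^ 7 + 3) := by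
  have k7 : 1 ≤ K ^ 7 := one_le_pow₀ h1
  have u1 : (1 : ℝ) ≤ 4 ^ C.μ := one_le_pow₀ (by norm_num)
  have hKM : K ^ 7 ≤ (M : ℝ) ^ 7 := pow_le_pow_left₀ (by linarith) hM 7
  have h2 := hc_clo P (fun ω => (C2.cell i2 b ω, C.T i ω)) hli (c := 204 * K ^ 7 * 4 ^ C.μ) (by nlinarith)
    (N := 816 * M ^ 7 * 4 ^ C.μ) (by
      have q1 := Pth.q2_le_one C.μ
      have q0 := q2_pos C.μ
      push_cast
      calc 4 * (204 * K ^ 7 * 4 ^ C.μ) * q2 C.μ ≤ 4 * (204 * K ^ 7 * 4 ^ C.μ) * 1 :=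
            mul_le_mul_of_nonneg_left q1 (by positivity)
        _ = 816 * K ^ 7 * 4 ^ C.μ := by ring
        _ ≤ _ := by gcongr) (fun ω ω' hω hω' e => by
      simp only [Prod.mk.injEq] at e
      exact jun_clo h1 hl hp (hK ω hω) (hK ω' hω') (hK2 ω hω) (hK2 ω' hω') hμ hf (hT2 ω hω) hli hlj ha hR e.2 e.1)
  have h3 := log_N M C.μ
  linarith

/-- **junction**, the functional of `C2` agrees to `C.rk i - ν` digits only -/
theorem hc_jun_low (P : Law Ω) {ν : ℕ} (hν : C.R i b ≤ (low C ν).R i b + C.μ) (h1 : 1 ≤ K) {M : ℕ} (hM : K ≤ M) (hl : C2.l = C.l) (hp : C2.p = C.p) (hμ : C2.μ = C.μ)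
    (hf : C.rf i ≤ C2.rf i2) (hli : (low C ν).Lev i b) (hlj : C2.Lev i2 b) (ha : C.a i = C2.a i2)
    (hR : C.R i b ≤ C2.R i2 b + C.μ) (hK : ∀ ω, 0 < P.w ω → C.Ok K ω) (hK2 : ∀ ω, 0 < P.w ω → C2.Ok K ω)
    (hT2 : ∀ ω, 0 < P.w ω → Two (low C ν) C2 K i i2 ω) :
    hc P (C.cell i b) (fun ω => (C2.cell i2 b ω, C.T i ω)) ≤
      27 * C.μ * Real.log 2 + 9 * Real.log (1632 * M ^ 7 + 3) := by
  have k7 : 1 ≤ K ^ 7 := one_le_pow₀ h1
  have u1 : (1 : ℝ) ≤ 4 ^ C.μ := one_le_pow₀ (by norm_num)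
  have u2 : (1 : ℝ) ≤ 2 ^ C.μ := one_le_pow₀ (by norm_num)
  have hKM : K ^ 7 ≤ (M : ℝ) ^ 7 := pow_le_pow_left₀ (by linarith) hM 7
  have hR' := low_R' (C := C) ν i b
  have hLC : C.Lev i b := ⟨hli.1, le_trans hli.2 hR'⟩
  have e8 : (8 : ℝ) ^ C.μ = 4 ^ C.μ * 2 ^ C.μ := by rw [← mul_pow]; norm_num
  have h2 := hc_clo P (fun ω => (C2.cell i2 b ω, C.T i ω)) hLC (c := 204 * K ^ 7 * 4 ^ C.μ * 2 ^ C.μ) (by
      have : (1 : ℝ) ≤ 4 ^ C.μ * 2 ^ C.μ := one_le_mul_of_one_le_of_one_le u1 u2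
      rw [mul_assoc]
      nlinarith)
    (N := 816 * M ^ 7 * 8 ^ C.μ) (by
      have q1 := Pth.q2_le_one C.μ
      have q0 := q2_pos C.μ
      push_cast
      calc 4 * (204 * K ^ 7 * 4 ^ C.μ * 2 ^ C.μ) * q2 C.μ ≤ 4 * (204 * K ^ 7 * 4 ^ C.μ * 2 ^ C.μ) * 1 :=
            mul_le_mul_of_nonneg_left q1 (by positivity)
        _ = 816 * K ^ 7 * 8 ^ C.μ := by rw [e8]; ring
        _ ≤ _ := by gcongr) (fun ω ω' hω hω' e => by
      simp only [Prod.mk.injEq] at e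
      refine clo_of_low hν (by positivity) hli ?_
      exact jun_clo (C := low C ν) h1 hl hp (low_Ok (by linarith) (hK ω hω)) (low_Ok (by linarith) (hK ω' hω')) (hK2 ω hω)
        (hK2 ω' hω') hμ hf (hT2 ω hω) hli hlj ha (by
          show (low C ν).R i b ≤ C2.R i2 b + C.μ
          omega) e.2 e.1)
  have h3 := log_N' M C.μ
  linarith

end ent

end Vale.Agent.P106.U.H624
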