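import Vale.Agent.P106.U.H624.Jun
import Vale.Agent.P106.U.H785.MtrOk

/-!
# P106 / U / H624 : junction of the cells `C.cell k b` and `D.mtr i b` (helper624)

`C` : a path; `D` : 785's data of the cells with true digits, the same rays, times, own slopes, levels.

* general form: the numbers of `D` have `D.rr i ≤ C.rk k` digits and the thickness of the cells differs by at most `μ`
  (`Sm0`), the functional of the step `k` of `C` agrees to `D.rr i` digits (`Lnk0`):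
  `hc_cell_mtr0`, `hc_mtr0_cell`; two data: `hc_mtr_mtr`, `hc_mtr_mtr'`.
* `Same`, `Lnk D C K i ω` : same precision of the line; the functional agrees to `rk i` digits.
* `hc_cell_mtr` : `H(C.cell i b | mtr i b, C.T i) ≤ 27 μ log 2 + C(K)`;
  `hc_mtr_cell` : `H(mtr i b | C.cell i b, lt i) ≤ 18 μ log 2 + C(K)`.
-/

set_option autoImplicit false

namespace Vale.Agent.P106.U.H624

open Finset Vale.Agent.P127 Vale.Agent.P127.Stk
open Vale.Agent.P127.U.CellD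
open Vale.Agent.P106.U.Cell Vale.Agent.P106.U.Cell.Pth
open Vale.Agent.P106.U.H101
open Vale.Agent.P106.U.H785.Mtr (Mtd)

section one

variable {Ω τ π π' : Type} {C : Pth Ω τ} {D : Mtd Ω π} {D' : Mtd Ω π'} {i k b : ℕ} {ω : Ω} {K : ℝ}

/-- the two data belong to the same run; the line of `D` may be less precise -/
structure Sm0 (D : Mtd Ω π) (C : Pth Ω τ) (i k b : ℕ) : Prop where
  a : D.a i = C.a k
  rf : D.rf i = C.rf k
  rr : D.rr i ≤ C.rk k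
  R : C.R k b ≤ D.R i b + C.μ
  μ : D.μ = C.μ
  l : D.l = C.l
  t : D.t = C.t
  p : D.p = C.p

/-- the functional of the step against the true numbers -/
structure Lnk0 (D : Mtd Ω π) (C : Pth Ω τ) (K : ℝ) (i k : ℕ) (ω : Ω) : Prop where
  un : |(C.F k ω).cN (C.l ω) (C.s k ω) - D.un ω| ≤ 4 * K * q2 (D.rr i)
  ka : |(C.F k ω).ka - D.κ i ω| ≤ 4 * K * q2 (D.rr i)
  al : |(C.F k ω).al - D.g i ω| * q2 (C.a k) ≤ 4 * K * q2 (D.rr i)

/-- levels of the junction -/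
structure JLv (C : Pth Ω τ) (i b : ℕ) : Prop where
  hb : 8 * C.μ ≤ b
  hR : 9 * C.μ ≤ C.R i b

theorem s_eq0 (h : Sm0 D C i k b) (ω : Ω) : D.s i ω = C.s k ω := by
  unfold Mtd.s Pth.s
  rw [h.a, h.t]

/-- the functional of the letter and the functional of the step -/
theorem agr0 (h : Sm0 D C i k b) (h1 : 1 ≤ K) {I : Set ℕ} (hy : D.Hy K I ω) (hi : i ∈ I) (L : Lnk0 D C K i k ω) :
    Agr (8 * K) (D.rr i) (C.a k) (C.F k ω) ((D.p1 i).F 0 ω) (C.l ω) (C.s k ω) := by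
  have q0 := q2_pos (D.rr i)
  have e1 := Mtd.cN_near h1 hy hi
  have e2 := Mtd.ka_near D i ω
  refine ⟨?_, ?_, ?_⟩
  · have e3 : ((D.p1 i).F 0 ω).cN (C.l ω) (C.s k ω) = D.cNL i ω := by
      rw [← h.l, ← s_eq0 h]
      rfl
    rw [e3]
    have := L.un
    rw [abs_le] at e1 this ⊢
    constructor <;> nlinarith [e1.1, e1.2, this.1, this.2]
  · have e3 : ((D.p1 i).F 0 ω).ka = D.kaL i (D.lt i ω) := rfl
    rw [e3]
    have := L.ka
    rw [abs_le] at e2 this ⊢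
    constructor <;> nlinarith [e2.1, e2.2, this.1, this.2]
  · have e3 : ((D.p1 i).F 0 ω).al = D.g i ω := rfl
    rw [e3, abs_sub_comm]
    have := L.al
    nlinarith

/-- symmetry of the agreement at one time -/
theorem agr_symm {r A : ℕ} {F G : Fu} {l : Ray} {s : ℝ} (h : Agr K r A F G l s) : Agr K r A G F l s := by
  refine ⟨?_, ?_, ?_⟩
  · rw [abs_sub_comm]; exact h.cN
  · rw [abs_sub_comm]; exact h.ka
  · rw [abs_sub_comm]; exact h.al

theorem low_rk (C : Pth Ω τ) {k r : ℕ} (h : r ≤ C.rk k) : (low C (C.rk k - r)).rk k = r := by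
  show C.rk k - (C.rk k - r) = r
  omega

theorem two_low0 (h : Sm0 D C i k b) (h1 : 1 ≤ K) {I : Set ℕ} (hy : D.Hy K I ω) (hi : i ∈ I) (L : Lnk0 D C K i k ω) :
    Two (low C (C.rk k - D.rr i)) (D.p1 i) (8 * K) k 0 ω := by
  have hs : (D.p1 i).s 0 ω = C.s k ω := s_eq0 h ω
  have ha : (D.p1 i).a 0 = C.a k := h.a
  have hr := low_rk C h.rr
  refine ⟨?_, ?_⟩
  · show Agr (8 * K) ((low C (C.rk k - D.rr i)).rk k) ((D.p1 i).a 0) ((C.F k ω).sh ((D.p1 i).s 0 ω - C.s k ω))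
      ((D.p1 i).F 0 ω) (C.l ω) ((D.p1 i).s 0 ω)
    rw [hs, ha, sub_self, Fu.sh_zero, hr]
    exact agr0 h h1 hy hi L
  · show |C.s k ω - (D.p1 i).s 0 ω| ≤ q2 (C.a k)
    rw [hs, sub_self, abs_zero]
    exact (q2_pos _).le

theorem two_up0 (h : Sm0 D C i k b) (h1 : 1 ≤ K) {I : Set ℕ} (hy : D.Hy K I ω) (hi : i ∈ I) (L : Lnk0 D C K i k ω) :
    Two (D.p1 i) C (8 * K) 0 k ω := by
  have hs : (D.p1 i).s 0 ω = C.s k ω := s_eq0 h ω
  have er : (D.p1 i).rk 0 = D.rr i := rfl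
  have hl : (D.p1 i).l ω = C.l ω := congrFun h.l ω
  refine ⟨?_, ?_⟩
  · rw [hs, sub_self, Fu.sh_zero, er, hl]
    exact agr_symm (agr0 h h1 hy hi L)
  · rw [hs, sub_self, abs_zero]
    exact (q2_pos _).le

theorem p1_ok (h1 : 1 ≤ K) {I : Set ℕ} (hy : D.Hy K I ω) (hi : i ∈ I) : (D.p1 i).Ok (8 * K) ω :=
  Mtd.pa_ok h1 hy fun _ => hi

theorem ok_mono {K' : ℝ} (hK : 0 ≤ K) (h : K ≤ K') (hC : C.Ok K ω) : C.Ok K' ω := by
  have q : ∀ n, K * q2 n ≤ K' * q2 n := fun n => mul_le_mul_of_nonneg_right h (q2_pos n).le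
  refine ⟨hC.v1, hC.w1, hC.p1, fun i => ?_, fun i => (hC.n2 i).trans h, fun i => (hC.k1 i).trans h,
    fun i => (hC.a1 i).trans h, fun i j hij => ?_⟩
  · have h1 := hC.n1 i
    have h2 : 0 ≤ (C.F i ω).cN (C.l ω) (C.s i ω) := by
      by_contra hn
      push Not at hn
      nlinarith
    exact h1.trans (mul_le_mul_of_nonneg_right h h2)
  · have h1 := hC.ag i j hij
    exact ⟨h1.cN.trans (q _), h1.ka.trans (q _), h1.al.trans (q _)⟩

theorem low_R0 (h : Sm0 D C i k b) : (low C (C.rk k - D.rr i)).R k b = D.R i b := by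
  rw [R_eq, low_rk C h.rr]
  unfold Mtd.R
  rw [h.rf]
  rfl

theorem R_le0 (h : Sm0 D C i k b) : D.R i b ≤ C.R k b := by
  rw [← low_R0 h]
  exact low_R' _ _ _

theorem JLv.low0 (h : JLv C k b) (hS : Sm0 D C i k b) : (low C (C.rk k - D.rr i)).Lev k b := by
  refine ⟨h.hb, ?_⟩
  rw [low_R0 hS]
  show 8 * C.μ ≤ D.R i b
  have h2 := h.hR
  have h3 := hS.R
  omega

theorem JLv.p10 (h : JLv C k b) (hS : Sm0 D C i k b) : (D.p1 i).Lev 0 b := by
  have h2 := h.hR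
  have h3 := hS.R
  have e : (D.p1 i).μ = C.μ := hS.μ
  have e2 := Mtd.p1_R D i b
  refine ⟨?_, ?_⟩
  · rw [e]; exact h.hb
  · rw [e, e2]; omega

end one

section ent

variable {Ω : Type} [Fintype Ω] {τ π π' : Type} {C : Pth Ω τ} {D : Mtd Ω π} {D' : Mtd Ω π'} {i k b : ℕ} {K : ℝ}

/-- **V → S** : the cell of the path given the cell with true digits and the letter of the path, general form -/
theorem hc_cell_mtr0 (P : Law Ω) (hS : Sm0 D C i k b) (hL : JLv C k b) (h1 : 1 ≤ K) {M : ℕ} (hM : 8 * K ≤ M) {I : Set ℕ}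
    (hi : i ∈ I) (hC : ∀ ω, 0 < P.w ω → C.Ok (8 * K) ω) (hy : ∀ ω, 0 < P.w ω → D.Hy K I ω)
    (L : ∀ ω, 0 < P.w ω → Lnk0 D C K i k ω) :
    hc P (C.cell k b) (fun ω => (D.mtr i b ω, C.T k ω)) ≤
      27 * C.μ * Real.log 2 + 9 * Real.log (1632 * M ^ 7 + 3) := by
  have e2 := Mtd.p1_R D i b
  have h2 := hc_jun_low (C := C) (C2 := D.p1 i) (i := k) (i2 := 0) (b := b) P (ν := C.rk k - D.rr i)
    (by rw [low_R0 hS]; exact hS.R) (by linarith) hM hS.l hS.p hS.μ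
    (le_of_eq hS.rf.symm) (hL.low0 hS) (hL.p10 hS) hS.a.symm (by rw [e2]; exact hS.R) hC
    (fun ω hω => p1_ok h1 (hy ω hω) hi) (fun ω hω => two_low0 hS h1 (hy ω hω) hi (L ω hω))
  refine le_trans (hc_mono_right P _ fun ω ω' _ _ e => ?_) h2
  have e1 : (D.mtr i b ω, C.T k ω) = (D.mtr i b ω', C.T k ω') := e
  have e2 := (Mtd.p1_cell_iff D i 0 b ω ω').2 (congrArg Prod.fst e1)
  have e3 : C.T k ω = C.T k ω' := congrArg Prod.snd e1
  exact Prod.ext e2 e3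

/-- **S → V** : the cell with true digits given the cell of the path and the letter, general form -/
theorem hc_mtr0_cell (P : Law Ω) (hS : Sm0 D C i k b) (hL : JLv C k b) (h1 : 1 ≤ K) {M : ℕ} (hM : 8 * K ≤ M) {I : Set ℕ}
    (hi : i ∈ I) (hC : ∀ ω, 0 < P.w ω → C.Ok (8 * K) ω) (hy : ∀ ω, 0 < P.w ω → D.Hy K I ω)
    (L : ∀ ω, 0 < P.w ω → Lnk0 D C K i k ω) :
    hc P (D.mtr i b) (fun ω => (C.cell k b ω, D.lt i ω)) ≤
      18 * C.μ * Real.log 2 + 9 * Real.log (1632 * M ^ 7 + 3) := by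
  have hR := R_le0 hS
  have e2 := Mtd.p1_R D i b
  have hLC : C.Lev k b := ⟨hL.hb, by
    have := hL.hR
    omega⟩
  have h2 := hc_jun (C := D.p1 i) (C2 := C) (i := 0) (i2 := k) (b := b) P (K := 8 * K) (by linarith) hM hS.l.symm hS.p.symm
    hS.μ.symm (le_of_eq hS.rf) (hL.p10 hS) hLC hS.a (by rw [e2]; omega)
    (fun ω hω => p1_ok h1 (hy ω hω) hi) hC (fun ω hω => two_up0 hS h1 (hy ω hω) hi (L ω hω))
  have eμ : (D.p1 i).μ = C.μ := hS.μ
  rw [eμ] at h2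
  refine le_trans (hc_mono_left P fun ω ω' _ _ e => ?_) (le_trans (hc_mono_right P _ fun ω ω' _ _ e => ?_) h2)
  · have e1 : ((D.p1 i).cell 0 b ω, (C.cell k b ω, D.lt i ω)) = ((D.p1 i).cell 0 b ω', (C.cell k b ω', D.lt i ω')) := e
    exact (Mtd.p1_cell_iff D i 0 b ω ω').1 (congrArg Prod.fst e1)
  · have e1 : (C.cell k b ω, D.lt i ω) = (C.cell k b ω', D.lt i ω') := e
    have e0 : C.cell k b ω = C.cell k b ω' := congrArg Prod.fst e1
    have e2 : D.lt i ω = D.lt i ω' := congrArg Prod.snd e1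
    exact Prod.ext e0 ((Mtd.pa_T_iff D (fun _ => i) monotone_const 0 ω ω').2 fun _ _ => e2)

/-! ### two data -/

/-- two data of one run, the line of `D'` may be less precise -/
structure Sm2 (D : Mtd Ω π) (D' : Mtd Ω π') (i b : ℕ) : Prop where
  a : D'.a i = D.a i
  rf : D'.rf i = D.rf i
  rk : D'.rk i ≤ D.rk i
  ν : D'.ν = D.ν
  R : D.R i b ≤ D'.R i b + D.μ
  μ : D'.μ = D.μ
  l : D'.l = D.l
  t : D'.t = D.t
  p : D'.p = D.p
  un : D'.un = D.un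
  κ : D'.κ i = D.κ i
  al : D'.al i = D.al i

omit [Fintype Ω] in
theorem Sm2.rr (h : Sm2 D D' i b) : D'.rr i ≤ D.rr i := by
  unfold Mtd.rr
  rw [h.ν]
  exact Nat.sub_le_sub_right h.rk _

omit [Fintype Ω] in
theorem Sm2.sm0 (h : Sm2 D D' i b) : Sm0 D' (D.p1 i) i 0 b :=
  ⟨h.a, h.rf, h.rr, by rw [Mtd.p1_R]; exact h.R, h.μ, h.l, h.t, h.p⟩

omit [Fintype Ω] in
theorem Sm2.lnk (h : Sm2 D D' i b) (h1 : 1 ≤ K) {I I' : Set ℕ} {ω : Ω} (hy : D.Hy K I ω) (hi : i ∈ I)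
    (hy' : D'.Hy K I' ω) (hi' : i ∈ I') : Lnk0 D' (D.p1 i) K i 0 ω := by
  have hr : q2 (D.rr i) ≤ q2 (D'.rr i) := q2_le h.rr
  have q0 := q2_pos (D.rr i)
  have hK : 4 * K * q2 (D.rr i) ≤ 4 * K * q2 (D'.rr i) := mul_le_mul_of_nonneg_left hr (by linarith)
  refine ⟨?_, ?_, ?_⟩
  · rw [h.un]
    exact (Mtd.cN_near h1 hy hi).trans hK
  · rw [h.κ]
    refine (Mtd.ka_near D i ω).trans (le_trans ?_ hK)
    nlinarith
  · have e1 := hy.ap i hi
    have e2 := hy'.ap i hi'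
    rw [h.al, h.a] at e2
    have k1 : K * q2 (D.rk i) ≤ K * q2 (D'.rr i) :=
      mul_le_mul_of_nonneg_left ((Mtd.rr_le D i).trans hr) (by linarith)
    have k2 : K * q2 (D'.rk i) ≤ K * q2 (D'.rr i) :=
      mul_le_mul_of_nonneg_left (Mtd.rr_le D' i) (by linarith)
    show |D.g i ω - D'.g i ω| * q2 (D.a i) ≤ 4 * K * q2 (D'.rr i)
    have h3 : |D.g i ω - D'.g i ω| ≤ |D.al i ω - D.g i ω| + |D.al i ω - D'.g i ω| := by
      have : D.g i ω - D'.g i ω = (D.al i ω - D'.g i ω) - (D.al i ω - D.g i ω) := by ring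
      rw [this, add_comm]
      exact abs_sub _ _
    have h4 := mul_le_mul_of_nonneg_right h3 (q2_pos (D.a i)).le
    have h5 : 0 ≤ K * q2 (D'.rr i) := by have := q2_pos (D'.rr i); positivity
    nlinarith

/-- **the finer letter given the coarser cell** -/
theorem hc_mtr_mtr (P : Law Ω) (hS : Sm2 D D' i b) (hb : 8 * D.μ ≤ b) (hR : 9 * D.μ ≤ D.R i b) (h1 : 1 ≤ K) {M : ℕ}
    (hM : 8 * K ≤ M) {I I' : Set ℕ} (hi : i ∈ I) (hi' : i ∈ I') (hy : ∀ ω, 0 < P.w ω → D.Hy K I ω)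
    (hy' : ∀ ω, 0 < P.w ω → D'.Hy K I' ω) :
    hc P (D.mtr i b) (fun ω => (D'.mtr i b ω, D.lt i ω)) ≤
      27 * D.μ * Real.log 2 + 9 * Real.log (1632 * M ^ 7 + 3) := by
  have hL : JLv (D.p1 i) 0 b := ⟨hb, by rw [Mtd.p1_R]; exact hR⟩
  have h2 := hc_cell_mtr0 P hS.sm0 hL h1 hM hi' (fun ω hω => p1_ok h1 (hy ω hω) hi) hy'
    (fun ω hω => hS.lnk h1 (hy ω hω) hi (hy' ω hω) hi')
  refine le_trans (hc_mono_left P fun ω ω' _ _ e => ?_) (le_trans (hc_mono_right P _ fun ω ω' _ _ e => ?_) h2)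
  · have e1 : ((D.p1 i).cell 0 b ω, (D'.mtr i b ω, D.lt i ω)) = ((D.p1 i).cell 0 b ω', (D'.mtr i b ω', D.lt i ω')) := e
    exact (Mtd.p1_cell_iff D i 0 b ω ω').1 (congrArg Prod.fst e1)
  · have e1 : (D'.mtr i b ω, D.lt i ω) = (D'.mtr i b ω', D.lt i ω') := e
    have e0 : D'.mtr i b ω = D'.mtr i b ω' := congrArg Prod.fst e1
    have e2 : D.lt i ω = D.lt i ω' := congrArg Prod.snd e1
    exact Prod.ext e0 ((Mtd.pa_T_iff D (fun _ => i) monotone_const 0 ω ω').2 fun _ _ => e2)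

/-- **the coarser cell given the finer cell** -/
theorem hc_mtr_mtr' (P : Law Ω) (hS : Sm2 D D' i b) (hb : 8 * D.μ ≤ b) (hR : 9 * D.μ ≤ D.R i b) (h1 : 1 ≤ K) {M : ℕ}
    (hM : 8 * K ≤ M) {I I' : Set ℕ} (hi : i ∈ I) (hi' : i ∈ I') (hy : ∀ ω, 0 < P.w ω → D.Hy K I ω)
    (hy' : ∀ ω, 0 < P.w ω → D'.Hy K I' ω) :
    hc P (D'.mtr i b) (fun ω => (D.mtr i b ω, D'.lt i ω)) ≤
      18 * D.μ * Real.log 2 + 9 * Real.log (1632 * M ^ 7 + 3) := by
  have hL : JLv (D.p1 i) 0 b := ⟨hb, by rw [Mtd.p1_R]; exact hR⟩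
  have h2 := hc_mtr0_cell P hS.sm0 hL h1 hM hi' (fun ω hω => p1_ok h1 (hy ω hω) hi) hy'
    (fun ω hω => hS.lnk h1 (hy ω hω) hi (hy' ω hω) hi')
  refine le_trans (hc_mono_right P _ fun ω ω' _ _ e => ?_) h2
  have e1 : (D.mtr i b ω, D'.lt i ω) = (D.mtr i b ω', D'.lt i ω') := e
  have e0 : D.mtr i b ω = D.mtr i b ω' := congrArg Prod.fst e1
  have e2 : D'.lt i ω = D'.lt i ω' := congrArg Prod.snd e1
  exact Prod.ext ((Mtd.p1_cell_iff D i 0 b ω ω').2 e0) e2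

/-! ### same precision of the line -/

/-- the two data belong to the same run -/
structure Same (D : Mtd Ω π) (C : Pth Ω τ) (i : ℕ) : Prop where
  a : D.a i = C.a i
  rf : D.rf i = C.rf i
  rk : D.rk i = C.rk i
  μ : D.μ = C.μ
  l : D.l = C.l
  t : D.t = C.t
  p : D.p = C.p
  ν : D.ν ≤ C.μ

/-- the functional of the step against the true numbers -/
structure Lnk (D : Mtd Ω π) (C : Pth Ω τ) (K : ℝ) (i : ℕ) (ω : Ω) : Prop where
  un : |(C.F i ω).cN (C.l ω) (C.s i ω) - D.un ω| ≤ K * q2 (C.rk i)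
  ka : |(C.F i ω).ka - D.κ i ω| ≤ K * q2 (C.rk i)
  al : |(C.F i ω).al - D.g i ω| * q2 (C.a i) ≤ K * q2 (C.rk i)

omit [Fintype Ω] in
theorem Same.sm0 (h : Same D C i) (b : ℕ) : Sm0 D C i i b := by
  have er : D.rr i = C.rk i - D.ν := by unfold Mtd.rr; rw [h.rk]
  refine ⟨h.a, h.rf, by rw [er]; exact Nat.sub_le _ _, ?_, h.μ, h.l, h.t, h.p⟩
  rw [R_eq]
  unfold Mtd.R
  rw [er, h.rf]
  have := h.ν
  omega

omit [Fintype Ω] in
theorem Lnk.lnk0 (hS : Same D C i) (h1 : 1 ≤ K) {ω : Ω} (h : Lnk D C K i ω) : Lnk0 D C K i i ω := by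
  have er : D.rr i = C.rk i - D.ν := by unfold Mtd.rr; rw [hS.rk]
  have hq : q2 (C.rk i) ≤ q2 (D.rr i) := by rw [er]; exact q2_le (Nat.sub_le _ _)
  have q0 := q2_pos (D.rr i)
  have hK : K * q2 (C.rk i) ≤ 4 * K * q2 (D.rr i) := by
    have := mul_le_mul_of_nonneg_left hq (show 0 ≤ K by linarith)
    nlinarith
  exact ⟨h.un.trans hK, h.ka.trans hK, h.al.trans hK⟩

/-- **V → S** : the cell of the path given the cell with true digits and the letter of the path -/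
theorem hc_cell_mtr (P : Law Ω) (hS : Same D C i) (hL : JLv C i b) (h1 : 1 ≤ K) {M : ℕ} (hM : 8 * K ≤ M) {I : Set ℕ}
    (hi : i ∈ I) (hC : ∀ ω, 0 < P.w ω → C.Ok (8 * K) ω) (hy : ∀ ω, 0 < P.w ω → D.Hy K I ω)
    (L : ∀ ω, 0 < P.w ω → Lnk D C K i ω) :
    hc P (C.cell i b) (fun ω => (D.mtr i b ω, C.T i ω)) ≤
      27 * C.μ * Real.log 2 + 9 * Real.log (1632 * M ^ 7 + 3) :=
  hc_cell_mtr0 P (hS.sm0 b) hL h1 hM hi hC hy fun ω hω => (L ω hω).lnk0 hS h1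

/-- **S → V** : the cell with true digits given the cell of the path and the letter -/
theorem hc_mtr_cell (P : Law Ω) (hS : Same D C i) (hL : JLv C i b) (h1 : 1 ≤ K) {M : ℕ} (hM : 8 * K ≤ M) {I : Set ℕ}
    (hi : i ∈ I) (hC : ∀ ω, 0 < P.w ω → C.Ok (8 * K) ω) (hy : ∀ ω, 0 < P.w ω → D.Hy K I ω)
    (L : ∀ ω, 0 < P.w ω → Lnk D C K i ω) :
    hc P (D.mtr i b) (fun ω => (C.cell i b ω, D.lt i ω)) ≤
      18 * C.μ * Real.log 2 + 9 * Real.log (1632 * M ^ 7 + 3) :=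
  hc_mtr0_cell P (hS.sm0 b) hL h1 hM hi hC hy fun ω hω => (L ω hω).lnk0 hS h1

end ent

end Vale.Agent.P106.U.H624
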