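import Vale.Agent.P106.U.H624.JunR
import Vale.Agent.P106.U.H118.HeavyV

/-!
# P106 / U / H624 : the junctions at every index of a young level (helper624)

The field `jun` of `S3.F2o` speaks of the time steps of the young levels.  Here: every index of the level.

* `JunH` : the field, for given excesses `x`.
* `xl R x z` : excess of the level `z`; `xl_sum`.
* `lt_same` : the letter of a later step of the same level given the letter of the earlier one.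
* `astep_of`, `rk_lvl` : the time step of a level, the precision inside a young level.
* `T_lt` : `H(C.T i | mt.lt i) ≤ K' (μ + m) + 2 m log 2 + cS K + xl (level)`.
* `J1_mt`, `J2_mt`, `J1_mt0`, `J2_mt0` : the four junctions, constant `jM`.
* `Mx`, **`J1_x`, `J2_x`, `td_x`** : the inputs of 118's `heavy_reX` for the letter of both kinds.
-/

set_option autoImplicit false

namespace Vale.Agent.P106.U.H624

open Finset Vale.Agent.P127 Vale.Agent.P127.Stk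
open Vale.Agent.P127.U.CellD
open Vale.Agent.P106.U.Cell Vale.Agent.P106.U.Cell.Pth
open Vale.Agent.P106.U.H101 (Two lc lc_F lc_s lc_l lc_R lc_Ok)
open Vale.Agent.P106.U.H785.Mtr (Mtd YI hy_mt hy_mt0)
open Vale.Agent.P106.U.H118 (mixY mixY_young mixY_old td td_of_T)

section

variable {Ω : Type} [Fintype Ω] {τ υ π : Type}
variable {R : S3.Run Ω τ υ} {p : S3.Run.Num} {K c' g' gU : ℝ} {B bS bV μ : ℕ} {F : S3.Pf R π} {Vs Xs : Finset ℕ}
  {o : Fin 7 → ℝ} {o' : ℕ → ℝ} {ω : Ω} {i k b : ℕ}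

/-- the field `jun`, excess `x k` at the time step `k` -/
structure JunH (R : S3.Run Ω τ υ) (F : S3.Pf R π) (Vs Xs : Finset ℕ) (μ : ℕ) (K' : ℝ) (o : Fin 7 → ℝ) (o' : ℕ → ℝ)
    (x : ℕ → ℝ) : Prop where
  x0 : ∀ k, 0 ≤ x k
  le : ∀ k, 1 ≤ k → k ≤ R.n → S3.lv R k ∈ Vs → S3.lv R k ∉ Xs → R.IsA k →
    Stk.hc R.Q (R.C.T k) ((S3.mt R F μ o o').lt k) ≤ K' * ((μ : ℝ) + R.m) + x k

open Classical in
/-- from the field of the record -/
theorem junH_of {K' : ℝ} (h : S3.F2o R p B bS bV F Vs Xs μ K' o o') : ∃ x : ℕ → ℝ, JunH R F Vs Xs μ K' o o' x ∧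
    ∑ k ∈ range (R.n + 1), x k ≤ S3.F2b R p B μ K' 0 := by
  obtain ⟨x, h0, h1, h2⟩ := h.jun
  exact ⟨x, ⟨h0, fun k k1 k2 k3 k4 k5 => h1 k (Finset.mem_Icc.2 ⟨k1, k2⟩) k3 k4 k5⟩, h2⟩

/-- excess of a level -/
noncomputable def xl (R : S3.Run Ω τ υ) (x : ℕ → ℝ) (z : ℕ) : ℝ :=
  ∑ k ∈ (range (R.n + 1)).filter (fun k => S3.lv R k = z), x k

theorem xl_nonneg {x : ℕ → ℝ} (hx : ∀ k, 0 ≤ x k) (z : ℕ) : 0 ≤ xl R x z := Finset.sum_nonneg fun k _ => hx k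

theorem le_xl {x : ℕ → ℝ} (hx : ∀ k, 0 ≤ x k) {k : ℕ} (hk : k ≤ R.n) : x k ≤ xl R x (S3.lv R k) :=
  Finset.single_le_sum (f := x) (fun k _ => hx k)
    (Finset.mem_filter.2 ⟨Finset.mem_range.2 (by omega), rfl⟩)

theorem xl_sum {x : ℕ → ℝ} (hx : ∀ k, 0 ≤ x k) (T : Finset ℕ) : ∑ z ∈ T, xl R x z ≤ ∑ k ∈ range (R.n + 1), x k := by
  classical
  unfold xl
  rw [← Finset.sum_biUnion]
  · exact Finset.sum_le_sum_of_subset_of_nonneg
      (Finset.biUnion_subset.2 fun z _ => Finset.filter_subset _ _) fun k _ _ => hx k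
  · intro z _ z' _ hne
    refine Finset.disjoint_left.2 fun k h1 h2 => hne ?_
    rw [Finset.mem_filter] at h1 h2
    exact h1.2.symm.trans h2.2

/-! ### the letters of one level -/

/-- constant of the letters of one level -/
noncomputable def cS (K : ℝ) : ℝ := Real.log (2 * (⌈2 * K⌉₊ : ℕ) + 5) + Real.log (2 * (⌈6 * K⌉₊ : ℕ) + 5)

theorem log_blk (m : ℕ) (x : ℝ) :
    Real.log (2 * ((2 ^ m + ⌈x⌉₊ : ℕ) : ℝ) + 3) ≤ m * Real.log 2 + Real.log (2 * (⌈x⌉₊ : ℕ) + 5) := by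
  have h1 : (1 : ℝ) ≤ 2 ^ m := one_le_pow₀ (by norm_num)
  have h2 : (0 : ℝ) ≤ (⌈x⌉₊ : ℕ) := Nat.cast_nonneg _
  have e : m * Real.log 2 + Real.log (2 * (⌈x⌉₊ : ℕ) + 5) = Real.log (2 ^ m * (2 * (⌈x⌉₊ : ℕ) + 5)) := by
    rw [Real.log_mul (by positivity) (by positivity), Real.log_pow]
  rw [e]
  refine Real.log_le_log (by positivity) ?_
  push_cast
  nlinarith

/-- the curvatures of one level -/
theorem al_same (hok : R.Ok p K c' g' gU) (hf : S3.F2 R p K B bS bV F Vs Xs) (hB2 : 2 ≤ B) (h1 : 1 ≤ K)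
    (hik : i ≤ k) (hk : k ≤ R.n + p.J) (ha : R.C.a k = R.C.a i) (hi : S3.lv R i ∈ Vs) (hrk : R.C.rk k ≤ R.C.rk i + R.m)
    (hω : 0 < R.Q.w ω) : |R.al k ω - R.al i ω| * q2 (R.C.a i) ≤ K * q2 (R.C.rk k) := by
  have e := hok.alD i k hik hk ω hω
  have d := hf.deep i (by omega) hi
  have q := q2_pos (R.C.a i)
  have e1 : q2 (R.C.a k + R.m) * 2 ^ R.m = q2 (R.C.a i) := by
    rw [ha, q2_add, mul_assoc, mul_comm (q2 R.m), q2_mul_pow, mul_one]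
  have e2 : q2 (R.rI i) * 2 ^ R.m ≤ q2 (R.C.rk k) := by
    have h2 : R.m * (B + p.s) = R.m * B + R.m * p.s := Nat.mul_add _ _ _
    have h3 : 2 * R.m ≤ R.m * B := by
      rw [Nat.mul_comm 2]
      exact Nat.mul_le_mul_left _ hB2
    have h4 : q2 (R.rI i) ≤ q2 (R.C.rk k + R.m) := q2_le (by omega)
    have h5 : q2 (R.C.rk k + R.m) * 2 ^ R.m = q2 (R.C.rk k) := by
      rw [q2_add, mul_assoc, mul_comm (q2 R.m), q2_mul_pow, mul_one]
    rw [← h5]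
    exact mul_le_mul_of_nonneg_right h4 (by positivity)
  calc |R.al k ω - R.al i ω| * q2 (R.C.a i) = |R.al k ω - R.al i ω| * q2 (R.C.a k + R.m) * 2 ^ R.m := by
        rw [← e1, mul_assoc]
    _ ≤ K * q2 (R.rI i) * 2 ^ R.m := mul_le_mul_of_nonneg_right e (by positivity)
    _ = K * (q2 (R.rI i) * 2 ^ R.m) := by ring
    _ ≤ K * q2 (R.C.rk k) := mul_le_mul_of_nonneg_left e2 (by linarith)

/-- kappa inside one level -/
theorem kaL_same (hok : R.Ok p K c' g' gU) (hf : S3.F2 R p K B bS bV F Vs Xs) (hB2 : 2 ≤ B) (h1 : 1 ≤ K)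
    (hik : i ≤ k) (hk : k ≤ R.n + p.J) (ha : R.C.a k = R.C.a i) (hi : S3.lv R i ∈ Vs) (hrk : R.C.rk k ≤ R.C.rk i + R.m)
    (hω : 0 < R.Q.w ω) : |S3.kaL R k ω - S3.kaL R i ω| ≤ K * q2 (R.C.rk k) := by
  have es : R.C.s k ω = R.C.s i ω := by unfold Pth.s; rw [ha]
  have tw := H785.Mtr.OfR.tW_near hok (show i ≤ R.n + p.J by omega) ω
  have e : S3.kaL R k ω - S3.kaL R i ω = (R.al k ω - R.al i ω) * (R.tW ω - R.C.s i ω) := by
    unfold S3.kaL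
    rw [es]
    ring
  rw [e]
  exact Mtd.prod_le (a := q2 (R.C.a i)) (al_same hok hf hB2 h1 hik hk ha hi hrk hω) tw

/-- gamma inside one level -/
theorem uL_same (hok : R.Ok p K c' g' gU) (hf : S3.F2 R p K B bS bV F Vs Xs) (hB2 : 2 ≤ B) (h1 : 1 ≤ K)
    (hik : i ≤ k) (hk : k ≤ R.n + p.J) (ha : R.C.a k = R.C.a i) (hi : S3.lv R i ∈ Vs) (hrk : R.C.rk k ≤ R.C.rk i + R.m)
    (hω : 0 < R.Q.w ω) : |S3.uL R o k ω - S3.uL R o i ω| ≤ 3 * K * q2 (R.C.rk k) := by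
  have es : R.C.s k ω = R.C.s i ω := by unfold Pth.s; rw [ha]
  have ek := kaL_same hok hf hB2 h1 hik hk ha hi hrk hω
  have ea := al_same hok hf hB2 h1 hik hk ha hi hrk hω
  have hw := (hok.ok ω hω).w1
  have q := q2_pos (R.C.rk k)
  set x : ℝ := (R.C.l ω).N (R.C.s i ω) -
    ((fl1 (R.C.a i) ((R.C.l ω).N (R.C.s i ω) + o 2) : ℝ) / 2 ^ R.C.a i - o 2) with hx
  have e : S3.uL R o k ω - S3.uL R o i ω = (S3.kaL R k ω - S3.kaL R i ω) * (R.C.l ω).w +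
      (R.al k ω - R.al i ω) * x := by
    unfold S3.uL
    rw [es, ha, ← hx]
    ring
  have t1 : |(S3.kaL R k ω - S3.kaL R i ω) * (R.C.l ω).w| ≤ K * q2 (R.C.rk k) * 2 := by
    rw [abs_mul]
    exact mul_le_mul ek hw (abs_nonneg _) (by positivity)
  have t2 : |(R.al k ω - R.al i ω) * x| ≤ K * q2 (R.C.rk k) :=
    Mtd.prod_le (a := q2 (R.C.a i)) ea (Mtd.Nr_near (S3.mt R F 0 o fun _ => 0) i ω)
  rw [e]
  rw [abs_le] at t1 t2 ⊢
  constructor <;> linarith [t1.1, t1.2, t2.1, t2.2]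

omit [Fintype Ω] in
theorem near_of_fl1 {r : ℕ} {x y : ℝ} (h : fl1 r x = fl1 r y) : |x - y| ≤ q2 r := by
  unfold fl1 at h
  have b1 := Int.floor_le ((2 : ℝ) ^ r * x)
  have b2 := Int.lt_floor_add_one ((2 : ℝ) ^ r * x)
  have c1 := Int.floor_le ((2 : ℝ) ^ r * y)
  have c2 := Int.lt_floor_add_one ((2 : ℝ) ^ r * y)
  rw [h] at b1 b2
  have e : q2 r * 2 ^ r = 1 := by rw [mul_comm]; exact q2_mul_pow r
  have hp : (0 : ℝ) < 2 ^ r := by positivity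
  have h3 : |(2 : ℝ) ^ r * x - 2 ^ r * y| ≤ 1 := by
    rw [abs_le]
    constructor <;> linarith
  rw [← mul_sub, abs_mul, abs_of_pos hp] at h3
  refine le_of_mul_le_mul_right ?_ hp
  rw [e, mul_comm]
  exact h3

/-- the digits of a real number, one block deeper -/
theorem dig_blk {x y : Ω → ℝ} {r r' m : ℕ} {c A : ℝ} (hr : r' ≤ r + m) (hA : 0 ≤ A) (hc : c ≤ A * q2 r')
    (P : Law Ω) {T : Type} (Y : Ω → T) (ox : ℝ)
    (hY : Fn P (fun ω => fl1 r (x ω + ox)) Y) (hxy : ∀ ω, 0 < P.w ω → |y ω - x ω| ≤ c) :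
    Stk.hc P (fun ω => fl1 r' (y ω + ox)) Y ≤ m * Real.log 2 + Real.log (2 * (⌈2 * A⌉₊ : ℕ) + 5) := by
  refine (H459.hc_fl1 P (fun ω => y ω + ox) Y r' (2 ^ m + ⌈2 * A⌉₊) fun ω ω' h h' e => ?_).trans
    (log_blk m (2 * A))
  have e1 := hY ω' ω h' h e
  have e2 : fl1 r (x ω' + ox) = fl1 r (x ω + ox) := e1
  have a3 : |x ω' - x ω| ≤ q2 r := by
    have a1 := near_of_fl1 e2
    rwa [add_sub_add_right_eq_sub] at a1
  have a4 : q2 r ≤ 2 ^ m * q2 r' := by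
    have h4 : q2 (r + m) ≤ q2 r' := q2_le hr
    have h5 : q2 (r + m) * 2 ^ m = q2 r := by
      rw [q2_add, mul_assoc, mul_comm (q2 m), q2_mul_pow, mul_one]
    rw [← h5, mul_comm (2 ^ m : ℝ)]
    exact mul_le_mul_of_nonneg_right h4 (by positivity)
  have a5 := hxy ω h
  have a6 := hxy ω' h'
  have a7 : 2 * A * q2 r' ≤ (⌈2 * A⌉₊ : ℕ) * q2 r' := mul_le_mul_of_nonneg_right (Nat.le_ceil _) (q2_pos _).le
  rw [add_sub_add_right_eq_sub]
  push_cast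
  rw [abs_le] at a3 a5 a6 ⊢
  constructor <;> nlinarith [a3.1, a3.2, a5.1, a5.2, a6.1, a6.2]

/-- **the letter of a later step of the same level** -/
theorem lt_same (hok : R.Ok p K c' g' gU) (hf : S3.F2 R p K B bS bV F Vs Xs) (hB2 : 2 ≤ B) (h1 : 1 ≤ K)
    (hik : i ≤ k) (hk : k ≤ R.n + p.J) (ha : R.C.a k = R.C.a i) (hi : S3.lv R i ∈ Vs)
    (hrk : R.C.rk k ≤ R.C.rk i + R.m) :
    Stk.hc R.Q ((S3.mt R F μ o o').lt k) ((S3.mt R F μ o o').lt i) ≤ 2 * (R.m * Real.log 2) + cS K := by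
  set D := S3.mt R F μ o o' with hD
  have es : ∀ ω, D.s k ω = D.s i ω := fun ω => by
    show rd (R.C.a k) (R.C.t ω) = rd (R.C.a i) (R.C.t ω)
    rw [ha]
  have eN : ∀ ω, D.nN k ω = D.nN i ω := fun ω => by
    unfold Mtd.nN
    rw [es]
    show fl1 (R.C.a k) _ = fl1 (R.C.a i) _
    rw [ha]
  have hrr : D.rr k ≤ D.rr i + R.m := by
    show R.C.rk k - μ / 2 ≤ R.C.rk i - μ / 2 + R.m
    omega
  have hq : q2 (R.C.rk k) ≤ q2 (D.rr k) := q2_le (Nat.sub_le _ _)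
  have hlv : S3.lv R k = S3.lv R i := by unfold S3.lv; rw [ha]
  have hpf : Fn R.Q (D.pf k) (D.pf i) := by
    obtain ⟨Cu, _, h3⟩ := hf.cut
    exact (h3 i k hik hk hi (hlv ▸ hi) (by omega) (Or.inl hlv.symm)).1
  have e1 : Stk.hc R.Q (D.kN k) (D.lt i) ≤ R.m * Real.log 2 + Real.log (2 * (⌈2 * K⌉₊ : ℕ) + 5) := by
    refine dig_blk (x := D.κ i) (y := D.κ k) (r := D.rr i) (c := K * q2 (R.C.rk k)) hrr (by linarith)
      (mul_le_mul_of_nonneg_left hq (by linarith)) R.Q (D.lt i) D.oκ ?_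
      fun ω hω => kaL_same hok hf hB2 h1 hik hk ha hi hrk hω
    intro ω ω' _ _ e
    exact congrArg (fun x => x.2.2.1) e
  have e2 : Stk.hc R.Q (D.uN k) (D.lt i) ≤ R.m * Real.log 2 + Real.log (2 * (⌈6 * K⌉₊ : ℕ) + 5) := by
    have h6 : (6 : ℝ) * K = 2 * (3 * K) := by ring
    rw [h6]
    refine dig_blk (x := D.u i) (y := D.u k) (r := D.rr i) (c := 3 * K * q2 (R.C.rk k)) hrr (by linarith)
      (mul_le_mul_of_nonneg_left hq (by linarith)) R.Q (D.lt i) D.oγ ?_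
      fun ω hω => uL_same hok hf hB2 h1 hik hk ha hi hrk hω
    intro ω ω' _ _ e
    exact congrArg (fun x => x.2.2.2.1) e
  have e3 : Stk.hc R.Q (D.lt k) (D.lt i) ≤ Stk.hc R.Q (fun ω => (D.kN k ω, D.uN k ω)) (D.lt i) := by
    have f1 := hc_le_add R.Q (D.lt k) (fun ω => (D.kN k ω, D.uN k ω)) (D.lt i)
    have f2 : Stk.hc R.Q (D.lt k) (fun ω => ((D.kN k ω, D.uN k ω), D.lt i ω)) = 0 := by
      refine hc_zero R.Q fun ω ω' h h' e => ?_
      have g1 : D.kN k ω = D.kN k ω' := congrArg (fun x => x.1.1) e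
      have g2 : D.uN k ω = D.uN k ω' := congrArg (fun x => x.1.2) e
      have g3 : D.lt i ω = D.lt i ω' := congrArg Prod.snd e
      have g4 : D.pf k ω = D.pf k ω' := hpf ω ω' h h' (congrArg (fun x => x.2.1) g3)
      have g5 : fl1 (D.a i) (D.t ω) = fl1 (D.a i) (D.t ω') := congrArg Prod.fst g3
      have g6 : D.nN i ω = D.nN i ω' := congrArg (fun x => x.2.2.2.2) g3
      have g7 : D.a k = D.a i := ha
      unfold Mtd.lt
      rw [g1, g2, g4, g7, g5, eN, eN, g6]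
    linarith
  have e4 := H420.hc_pair_le R.Q (D.kN k) (D.uN k) (D.lt i)
  unfold cS
  linarith

/-! ### the time step of a level -/

/-- the a-step at the end of the level of `i` -/
theorem astep_of (hP : R.Path p) (hi : i ≤ R.n) (h : R.C.a i < R.C.a R.n) :
    ∃ k, i ≤ k ∧ k < R.n ∧ R.IsA k ∧ R.C.a k = R.C.a i := by
  classical
  have hex : ∃ j, R.C.a i < R.C.a j := ⟨R.n, h⟩
  set j := Nat.find hex with hj
  have h1 : R.C.a i < R.C.a j := Nat.find_spec hex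
  have h2 : j ≤ R.n := Nat.find_min' hex h
  have h3 : i < j := by
    by_contra hc
    have := R.C.ha (show j ≤ i by omega)
    omega
  have h4 : ¬ R.C.a i < R.C.a (j - 1) := Nat.find_min hex (by omega)
  have h5 : R.C.a i ≤ R.C.a (j - 1) := R.C.ha (by omega)
  have h6 : j - 1 + 1 = j := by omega
  refine ⟨j - 1, by omega, by omega, ?_, by omega⟩
  have h7 := hP.stp (j - 1) (by omega)
  rw [h6] at h7
  unfold S3.Run.IsA
  rw [h6]
  rcases h7 with h8 | h8 | h8 <;> omega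

/-- the a-step before the level of `i` -/
theorem astep_before (hP : R.Path p) (hi : i ≤ R.n + p.J) (h : 1 ≤ S3.lv R i) :
    ∃ q, q < i ∧ R.IsA q ∧ R.C.a i = R.C.a q + R.m := by
  classical
  have h0 : R.m ≤ R.C.a i := by
    unfold S3.lv at h
    have := Nat.div_mul_le_self (R.C.a i) R.m
    nlinarith
  have m1 := hP.m1
  have hex : ∃ j, R.C.a j = R.C.a i := ⟨i, rfl⟩
  set j := Nat.find hex with hj
  have h1 : R.C.a j = R.C.a i := Nat.find_spec hex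
  have h2 : j ≤ i := Nat.find_min' hex rfl
  have h3 : j ≠ 0 := by
    intro h3
    rw [h3, hP.a0] at h1
    omega
  have h4 : R.C.a (j - 1) ≠ R.C.a i := Nat.find_min hex (by omega)
  have h5 : R.C.a (j - 1) ≤ R.C.a j := R.C.ha (by omega)
  have h6 : j - 1 + 1 = j := by omega
  have h7 := hP.stp (j - 1) (by omega)
  rw [h6] at h7
  refine ⟨j - 1, by omega, ?_, ?_⟩
  · unfold S3.Run.IsA
    rw [h6]
    rcases h7 with h8 | h8 | h8 <;> omega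
  · rcases h7 with h8 | h8 | h8 <;> omega

/-- **the precision inside a young level** -/
theorem rk_lvl (hP : R.Path p) (hf : S3.F2 R p K B bS bV F Vs Xs) (hik : i ≤ k) (hk : k ≤ R.n + p.J) (hA : R.IsA k)
    (ha : R.C.a k = R.C.a i) (hi : S3.lv R i ∈ Vs) (h1 : 1 ≤ S3.lv R i) : R.C.rk k ≤ R.C.rk i + R.m := by
  obtain ⟨q, hq, hqA, hqa⟩ := astep_before hP (show i ≤ R.n + p.J by omega) h1
  have hlv : S3.lv R k = S3.lv R i := by unfold S3.lv; rw [ha]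
  have h2 := hf.diag q k hk hqA hA (by rw [ha, hqa]) (Or.inr (hlv ▸ hi))
  have h3 := R.C.hk hq.le
  omega

/-- **the letter of the path given the letter of the step, every index of a young level** -/
theorem T_lt (hok : R.Ok p K c' g' gU) (hf : S3.F2 R p K B bS bV F Vs Xs) (hB2 : 2 ≤ B) (h1 : 1 ≤ K) {K' : ℝ}
    {x : ℕ → ℝ} (hj : JunH R F Vs Xs μ K' o o' x) (hin : i ≤ R.n) (ha : R.C.a i < R.C.a R.n)
    (hl : 1 ≤ S3.lv R i) (hi : S3.lv R i ∈ Vs) (hX : S3.lv R i ∉ Xs) :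
    Stk.hc R.Q (R.C.T i) ((S3.mt R F μ o o').lt i) ≤
      K' * ((μ : ℝ) + R.m) + 2 * (R.m * Real.log 2) + cS K + xl R x (S3.lv R i) := by
  obtain ⟨k, hik, hkn, hA, hka⟩ := astep_of hok.pth hin ha
  have hlv : S3.lv R k = S3.lv R i := by unfold S3.lv; rw [hka]
  have hrk := rk_lvl hok.pth hf hik (by omega) hA hka hi hl
  have hk1 : 1 ≤ k := by
    by_contra hc
    have h0 : k = 0 := by omega
    have : S3.lv R k = 0 := by unfold S3.lv; rw [h0, hok.pth.a0, Nat.zero_div]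
    omega
  have e1 := hj.le k hk1 hkn.le (hlv ▸ hi) (hlv ▸ hX) hA
  have e2 := le_xl (R := R) hj.x0 hkn.le
  rw [hlv] at e2
  have e3 := lt_same (μ := μ) (o := o) (o' := o') hok hf hB2 h1 hik (by omega) hka hi hrk
  have e4 : Stk.hc R.Q (R.C.T i) ((S3.mt R F μ o o').lt i) ≤ Stk.hc R.Q (R.C.T k) ((S3.mt R F μ o o').lt i) :=
    hc_mono_left R.Q fun ω ω' _ _ e => R.C.T_anti' hik (congrArg Prod.fst e)
  have e5 := H833.hc_le_near R.Q (R.C.T k) ((S3.mt R F μ o o').lt k) ((S3.mt R F μ o o').lt i)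
  have e6 : Stk.hc R.Q (R.C.T k) (fun ω => ((S3.mt R F μ o o').lt i ω, (S3.mt R F μ o o').lt k ω)) ≤
      Stk.hc R.Q (R.C.T k) ((S3.mt R F μ o o').lt k) :=
    hc_mono_right R.Q _ fun ω ω' _ _ e => congrArg Prod.snd e
  linarith

/-! ### the junctions -/

/-- constant of the junctions -/
noncomputable def jM (K K' : ℝ) (μ m : ℕ) : ℝ :=
  27 * μ * Real.log 2 + cJ K + cT (4 * K) + cS K + K' * ((μ : ℝ) + m) + 2 * (m * Real.log 2)

theorem cJ_nonneg (K : ℝ) : 0 ≤ cJ K := by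
  unfold cJ
  have : 0 ≤ Real.log (1632 * ((⌈32 * K⌉₊ : ℕ) : ℝ) ^ 7 + 3) := Real.log_nonneg (by
    have : (0 : ℝ) ≤ ((⌈32 * K⌉₊ : ℕ) : ℝ) ^ 7 := by positivity
    linarith)
  linarith

theorem cT_nonneg (K : ℝ) : 0 ≤ cT K := by
  unfold cT
  have h1 : 0 ≤ Real.log (2 * ((⌈2 * K⌉₊ : ℕ) : ℝ) + 3) := Real.log_nonneg (by
    have : (0 : ℝ) ≤ ((⌈2 * K⌉₊ : ℕ) : ℝ) := Nat.cast_nonneg _
    linarith)
  have h2 : 0 ≤ Real.log (2 * ((⌈10 * K⌉₊ : ℕ) : ℝ) + 3) := Real.log_nonneg (by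
    have : (0 : ℝ) ≤ ((⌈10 * K⌉₊ : ℕ) : ℝ) := Nat.cast_nonneg _
    linarith)
  linarith

theorem cS_nonneg (K : ℝ) : 0 ≤ cS K := by
  unfold cS
  have h1 : 0 ≤ Real.log (2 * ((⌈2 * K⌉₊ : ℕ) : ℝ) + 5) := Real.log_nonneg (by
    have : (0 : ℝ) ≤ ((⌈2 * K⌉₊ : ℕ) : ℝ) := Nat.cast_nonneg _
    linarith)
  have h2 : 0 ≤ Real.log (2 * ((⌈6 * K⌉₊ : ℕ) : ℝ) + 5) := Real.log_nonneg (by
    have : (0 : ℝ) ≤ ((⌈6 * K⌉₊ : ℕ) : ℝ) := Nat.cast_nonneg _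
    linarith)
  linarith

theorem jM_nonneg {K' : ℝ} (hK' : 0 ≤ K') (K : ℝ) (μ m : ℕ) : 0 ≤ jM K K' μ m := by
  have := cJ_nonneg K
  have := cT_nonneg (4 * K)
  have := cS_nonneg K
  have hl2 : 0 ≤ Real.log 2 := Real.log_nonneg (by norm_num)
  unfold jM
  positivity

section hyp

variable (hok : R.Ok p K c' g' gU) (hf : S3.F2 R p K B bS bV F Vs Xs) (h1 : 1 ≤ K)
  (hB : (100 * K) ^ 20 ≤ (B : ℝ)) (hr : 100 * (R.m * B) ≤ R.r0) (hμB : μ ≤ B) (hμ : μ ≤ R.C.μ)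
  {K' : ℝ} (hK' : 0 ≤ K') {x : ℕ → ℝ} (hj : JunH R F Vs Xs μ K' o o' x)
  (hin : i ≤ R.n) (ha : R.C.a i < R.C.a R.n) (hl : 1 ≤ S3.lv R i) (hi : S3.lv R i ∈ Vs) (hX : S3.lv R i ∉ Xs)

theorem two_le_B (h1 : 1 ≤ K) (hB : (100 * K) ^ 20 ≤ (B : ℝ)) : 2 ≤ B := by
  have h2 : (100 : ℝ) ^ 20 ≤ (100 * K) ^ 20 := pow_le_pow_left₀ (by norm_num) (by linarith) 20
  have h3 : (2 : ℝ) ≤ B := by
    have : (2 : ℝ) ≤ 100 ^ 20 := by norm_num
    linarith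
  exact_mod_cast h3

include hok hf h1 hB hr hμB hμ hj hin ha hl hi hX

theorem J1_mt (hb : 8 * μ ≤ b) : Stk.hc R.Q ((lc R.C μ o).cell i b) ((S3.mt R F μ o o').mtr i b) ≤
    jM K K' μ R.m + xl R x (S3.lv R i) := by
  have e1 := cell_mtr (o := o) (o' := o') hok hf h1 hB hr hμB hμ (i := i) ⟨by omega, hi⟩ hin hb
  have e2 := T_lt hok hf (two_le_B h1 hB) h1 hj hin ha hl hi hX
  have := cT_nonneg (4 * K)
  unfold jM
  linarith

theorem J1_mt0 (hb : 8 * μ ≤ b) (hR0 : R.C.rf i + 2 * (R.m * B) ≤ b + F.rk0 i) :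
    Stk.hc R.Q ((lc R.C μ o).cell i b) ((S3.mt0 R F μ o o').mtr i b) ≤ jM K K' μ R.m + xl R x (S3.lv R i) := by
  have e1 := cell_mtr0 (o := o) (o' := o') hok hf h1 hB hr hμB hμ (i := i) ⟨by omega, hi⟩ hin hb hR0
  have e2 := T_lt hok hf (two_le_B h1 hB) h1 hj hin ha hl hi hX
  have := cT_nonneg (4 * K)
  unfold jM
  linarith

omit hj ha hl hX in
include hK' in
theorem J2_mt (hpT : Fn R.Q (F.pf i) (R.C.T i)) (hb : 8 * μ ≤ b) :
    Stk.hc R.Q ((S3.mt R F μ o o').mtr i b) ((lc R.C μ o).cell i b) ≤ jM K K' μ R.m := by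
  have e1 := mtr_cell (o := o) (o' := o') hok hf h1 hB hr hμB hμ (i := i) ⟨by omega, hi⟩ hin hpT hb
  have := cS_nonneg K
  have hl2 : 0 ≤ Real.log 2 := Real.log_nonneg (by norm_num)
  have a1 : 0 ≤ (μ : ℝ) * Real.log 2 := by positivity
  have a2 : 0 ≤ K' * ((μ : ℝ) + R.m) + 2 * (R.m * Real.log 2) := by positivity
  unfold jM
  linarith

omit hj ha hl hX in
include hK' in
theorem J2_mt0 (hpT : Fn R.Q (F.pf i) (R.C.T i)) (hb : 8 * μ ≤ b)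
    (hR0 : R.C.rf i + 2 * (R.m * B) ≤ b + F.rk0 i) :
    Stk.hc R.Q ((S3.mt0 R F μ o o').mtr i b) ((lc R.C μ o).cell i b) ≤ jM K K' μ R.m := by
  have e1 := mtr0_cell (o := o) (o' := o') hok hf h1 hB hr hμB hμ (i := i) ⟨by omega, hi⟩ hin hpT hb hR0
  have := cS_nonneg K
  have hl2 : 0 ≤ Real.log 2 := Real.log_nonneg (by norm_num)
  have a1 : 0 ≤ (μ : ℝ) * Real.log 2 := by positivity
  have a2 : 0 ≤ K' * ((μ : ℝ) + R.m) + 2 * (R.m * Real.log 2) := by positivity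
  unfold jM
  linarith

end hyp

/-! ### the letter of both kinds -/

/-- the levels of the two kinds at the cap `b` -/
structure KdX (R : S3.Run Ω τ υ) (F : S3.Pf R π) (B : ℕ) (Vs Xs : Finset ℕ) (b : ℕ) (V V2 : Set ℕ) : Prop where
  v : ∀ z ∈ V, z ∈ Vs ∧ z ∉ Xs ∧ 1 ≤ z ∧ R.m * z < R.C.a R.n
  s : V2 ⊆ V
  r : ∀ i ≤ R.n, S3.lv R i ∈ V2 → R.C.rf i + 2 * (R.m * B) ≤ b + F.rk0 i

/-- **the letter of a young step** : `mt0` on the levels `V2` (deep phi regime), `mt` on the others -/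
noncomputable def Mx (R : S3.Run Ω τ υ) (F : S3.Pf R π) (μ : ℕ) (o : Fin 7 → ℝ) (o' : ℕ → ℝ) (V2 : Set ℕ) (b i : ℕ)
    (ω : Ω) : (H785.Mtr.Lt π × Pth.Dg) ⊕ (H785.Mtr.Lt (π × ℤ × ℤ) × Pth.Dg) :=
  mixY (S3.lv R) V2 (fun i => (S3.mt R F μ o o').mtr i b) (fun i => (S3.mt0 R F μ o o').mtr i b) i ω

theorem Mx_1 {V2 : Set ℕ} (h : S3.lv R i ∉ V2) (ω ω' : Ω) : Mx R F μ o o' V2 b i ω = Mx R F μ o o' V2 b i ω' ↔
    (S3.mt R F μ o o').mtr i b ω = (S3.mt R F μ o o').mtr i b ω' := mixY_old h ω ω'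

theorem Mx_2 {V2 : Set ℕ} (h : S3.lv R i ∈ V2) (ω ω' : Ω) : Mx R F μ o o' V2 b i ω = Mx R F μ o o' V2 b i ω' ↔
    (S3.mt0 R F μ o o').mtr i b ω = (S3.mt0 R F μ o o').mtr i b ω' := mixY_young h ω ω'

/-- the time is in the letter -/
theorem td_x {V2 : Set ℕ} : Fn R.Q (td R.C i) (Mx R F μ o o' V2 b i) := by
  intro ω ω' _ _ e
  show fl1 (R.C.a i) (R.C.t ω) = fl1 (R.C.a i) (R.C.t ω')
  by_cases h : S3.lv R i ∈ V2
  · have h2 := (Mx_2 (R := R) h ω ω').1 e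
    exact congrArg (fun x => x.1.1) h2
  · have h2 := (Mx_1 (R := R) h ω ω').1 e
    exact congrArg (fun x => x.1.1) h2

section fin

variable {V V2 : Set ℕ} (hok : R.Ok p K c' g' gU) (hf : S3.F2 R p K B bS bV F Vs Xs) (h1 : 1 ≤ K)
  (hB : (100 * K) ^ 20 ≤ (B : ℝ)) (hr : 100 * (R.m * B) ≤ R.r0) (hμB : μ ≤ B) (hμ : μ ≤ R.C.μ)
  {K' : ℝ} (hK' : 0 ≤ K') {x : ℕ → ℝ} (hj : JunH R F Vs Xs μ K' o o' x) (hV : KdX R F B Vs Xs b V V2)
  (hb : 8 * μ ≤ b) (hin : i ≤ R.n) (hi : S3.lv R i ∈ V)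

include hok hV hin hi in
theorem lt_last : R.C.a i < R.C.a R.n := by
  have h2 := (hV.v _ hi).2.2.2
  have h3 := H833.lev_a hok.pth (i := i) (by omega)
  have h4 : H833.aN R i = S3.lv R i := rfl
  rw [h4] at h3
  omega

include hok hf h1 hB hr hμB hμ hj hV hb hin hi

/-- **V → S**, 118's `J1` -/
theorem J1_x : Stk.hc R.Q ((lc R.C μ o).cell i b) (Mx R F μ o o' V2 b i) ≤ jM K K' μ R.m + xl R x (S3.lv R i) := by
  have hl := lt_last hok hV hin hi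
  obtain ⟨g1, g2, g3, _⟩ := hV.v _ hi
  by_cases h : S3.lv R i ∈ V2
  · have e1 : Stk.hc R.Q ((lc R.C μ o).cell i b) (Mx R F μ o o' V2 b i) ≤
        Stk.hc R.Q ((lc R.C μ o).cell i b) ((S3.mt0 R F μ o o').mtr i b) :=
      hc_mono_right R.Q _ fun ω ω' _ _ e => (Mx_2 (R := R) h ω ω').1 e
    have e2 := J1_mt0 hok hf h1 hB hr hμB hμ hj hin hl g3 g1 g2 hb (hV.r i hin h)
    exact e1.trans e2
  · have e1 : Stk.hc R.Q ((lc R.C μ o).cell i b) (Mx R F μ o o' V2 b i) ≤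
        Stk.hc R.Q ((lc R.C μ o).cell i b) ((S3.mt R F μ o o').mtr i b) :=
      hc_mono_right R.Q _ fun ω ω' _ _ e => (Mx_1 (R := R) h ω ω').1 e
    have e2 := J1_mt hok hf h1 hB hr hμB hμ hj hin hl g3 g1 g2 hb
    exact e1.trans e2

omit hj in
include hK' in
/-- **S → V**, 118's `J2` -/
theorem J2_x (hpT : Fn R.Q (F.pf i) (R.C.T i)) :
    Stk.hc R.Q (Mx R F μ o o' V2 b i) ((lc R.C μ o).cell i b) ≤ jM K K' μ R.m := by
  obtain ⟨g1, g2, g3, _⟩ := hV.v _ hi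
  by_cases h : S3.lv R i ∈ V2
  · have e1 : Stk.hc R.Q (Mx R F μ o o' V2 b i) ((lc R.C μ o).cell i b) ≤
        Stk.hc R.Q ((S3.mt0 R F μ o o').mtr i b) ((lc R.C μ o).cell i b) :=
      hc_mono_left R.Q fun ω ω' _ _ e => (Mx_2 (R := R) h ω ω').2 (congrArg Prod.fst e)
    have e2 := J2_mt0 (o := o) (o' := o') hok hf h1 hB hr hμB hμ hK' hin g1 hpT hb (hV.r i hin h)
    exact e1.trans e2
  · have e1 : Stk.hc R.Q (Mx R F μ o o' V2 b i) ((lc R.C μ o).cell i b) ≤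
        Stk.hc R.Q ((S3.mt R F μ o o').mtr i b) ((lc R.C μ o).cell i b) :=
      hc_mono_left R.Q fun ω ω' _ _ e => (Mx_1 (R := R) h ω ω').2 (congrArg Prod.fst e)
    have e2 := J2_mt (o := o) (o' := o') hok hf h1 hB hr hμB hμ hK' hin g1 hpT hb
    exact e1.trans e2

end fin

end

end Vale.Agent.P106.U.H624
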